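import Mathlib

/-! P141: from a finite integer configuration to Schwartz test functions. -/

open MeasureTheory Filter Set Topology
open scoped ENNReal SchwartzMap

namespace Vale.Agent.P141

/-- A fixed bump: one on `[-1/4,1/4]`, supported in `(-1/2,1/2)`. -/
noncomputable def bump : ContDiffBump (0 : ℝ) := ⟨1/4, 1/2, by norm_num, by norm_num⟩

/-- Sum of translated bumps over a finite set of integers. -/
noncomputable def bumps (s : Finset ℤ) (y : ℝ) : ℝ := ∑ e ∈ s, bump (y - (e : ℝ))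

lemma bump_eq_zero {y : ℝ} (h : 1/2 ≤ |y|) : bump y = 0 := by
  apply bump.zero_of_le_dist
  rw [Real.dist_0_eq_abs]
  exact h

lemma bumps_nonneg (s : Finset ℤ) (y : ℝ) : 0 ≤ bumps s y :=
  Finset.sum_nonneg fun _ _ => bump.nonneg

lemma bumps_ne_zero {s : Finset ℤ} {y : ℝ} (h : bumps s y ≠ 0) :
    ∃ e ∈ s, |y - (e : ℝ)| < 1/2 := by
  by_contra hc
  push Not at hc
  exact h (Finset.sum_eq_zero fun e he => bump_eq_zero (hc e he))

lemma bumps_le_one (s : Finset ℤ) (y : ℝ) : bumps s y ≤ 1 := by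
  by_cases h : bumps s y = 0
  · rw [h]; norm_num
  · obtain ⟨e, he, hy⟩ := bumps_ne_zero h
    rw [bumps, Finset.sum_eq_single_of_mem e he]
    · exact bump.le_one
    · intro b _ hbe
      apply bump_eq_zero
      have h1 : (1 : ℝ) ≤ |(b : ℝ) - (e : ℝ)| := by
        have : (1 : ℤ) ≤ |b - e| := Int.one_le_abs (sub_ne_zero.mpr hbe)
        exact_mod_cast this
      have h2 : (b : ℝ) - (e : ℝ) = (y - (e : ℝ)) - (y - (b : ℝ)) := by ring
      rw [h2] at h1
      have := abs_sub (y - (e : ℝ)) (y - (b : ℝ))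
      linarith

lemma bumps_eq_one {s : Finset ℤ} {y : ℝ} {e : ℤ} (he : e ∈ s) (hy : |y - (e : ℝ)| ≤ 1/4) :
    bumps s y = 1 := by
  apply le_antisymm (bumps_le_one s y)
  have h1 : bump (y - (e : ℝ)) = 1 := by
    apply bump.one_of_mem_closedBall
    rw [Metric.mem_closedBall, Real.dist_0_eq_abs]
    exact hy
  rw [← h1]
  exact Finset.single_le_sum (f := fun k : ℤ => bump (y - (k : ℝ)))
    (fun _ _ => bump.nonneg) he

lemma bumps_contDiff (s : Finset ℤ) {n : ℕ∞} : ContDiff ℝ n (bumps s) :=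
  ContDiff.sum fun _ _ => bump.contDiff.comp (contDiff_id.sub contDiff_const)

lemma bumps_continuous (s : Finset ℤ) : Continuous (bumps s) :=
  continuous_finsetSum _ fun _ _ => bump.continuous.comp (continuous_id.sub continuous_const)

lemma bumps_hasCompactSupport (s : Finset ℤ) : HasCompactSupport (bumps s) := by
  apply HasCompactSupport.intro (K := ⋃ e ∈ s, Metric.closedBall (e : ℝ) (1/2))
  · exact s.isCompact_biUnion fun e _ => isCompact_closedBall _ _
  · intro y hy
    by_contra h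
    obtain ⟨e, he, hye⟩ := bumps_ne_zero h
    exact hy (mem_biUnion he (by rw [Metric.mem_closedBall, Real.dist_eq]; exact hye.le))

lemma bumps_ofReal_contDiff (s : Finset ℤ) {n : ℕ∞} :
    ContDiff ℝ n (fun y : ℝ => (bumps s y : ℂ)) :=
  Complex.ofRealCLM.contDiff.comp (bumps_contDiff s)

/-- The test function attached to a finite set of integers. -/
noncomputable def test (s : Finset ℤ) : 𝓢(ℝ, ℂ) :=
  HasCompactSupport.toSchwartzMap
    ((bumps_hasCompactSupport s).comp_left (g := fun r : ℝ => (r : ℂ)) Complex.ofReal_zero)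
    (bumps_ofReal_contDiff s)

lemma test_apply (s : Finset ℤ) (y : ℝ) : test s y = (bumps s y : ℂ) := rfl

lemma eLpNorm_test_le (s : Finset ℤ) (p : ℝ≥0∞) :
    eLpNorm (test s) p volume ≤ (s.card : ℝ≥0∞) ^ (p⁻¹).toReal := by
  set U : Set ℝ := ⋃ e ∈ s, Metric.ball (e : ℝ) (1/2) with hU
  have h1 : eLpNorm (test s) p volume ≤ eLpNorm (U.indicator fun _ => (1 : ℝ)) p volume := by
    apply eLpNorm_mono
    intro y
    rw [test_apply, Complex.norm_real, Real.norm_eq_abs, Real.norm_eq_abs,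
      abs_of_nonneg (bumps_nonneg s y)]
    by_cases hy : y ∈ U
    · rw [indicator_of_mem hy]; simpa using bumps_le_one s y
    · rw [indicator_of_notMem hy, abs_zero]
      by_contra hc
      push Not at hc
      obtain ⟨e, he, hye⟩ := bumps_ne_zero hc.ne'
      exact hy (mem_biUnion he (by rw [Metric.mem_ball, Real.dist_eq]; exact hye))
  refine h1.trans ((eLpNorm_indicator_const_le (1 : ℝ) p).trans ?_)
  have h2 : volume U ≤ (s.card : ℝ≥0∞) := by
    refine (measure_biUnion_finset_le s _).trans ?_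
    simp [Real.volume_ball]
  rw [enorm_one, one_mul, ENNReal.toReal_inv, one_div]
  exact ENNReal.rpow_le_rpow h2 (inv_nonneg.mpr ENNReal.toReal_nonneg)

/-- The integrand of the trilinear Hilbert transform on the test functions. -/
noncomputable def kern (s1 s2 s3 : Finset ℤ) (x t : ℝ) : ℝ :=
  bumps s1 (x - t) * bumps s2 (x - 2 * t) * bumps s3 (x - 3 * t) / t

section

variable {X : Finset ℤ} {F : ℤ → Finset ℤ} {E1 E2 E3 : Finset ℤ} {B : ℕ}

lemma kern_support (hsep : ∀ a ∈ E1, ∀ b ∈ E2, 2 ≤ a - b ∧ a - b ≤ (B : ℤ)) {x t : ℝ}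
    (h : kern E1 E2 E3 x t ≠ 0) : t ∈ Icc (1 : ℝ) ((B : ℝ) + 1) := by
  simp only [kern, ne_eq, div_eq_zero_iff, mul_eq_zero, not_or] at h
  obtain ⟨⟨⟨h1, h2⟩, -⟩, -⟩ := h
  obtain ⟨a, ha, hxa⟩ := bumps_ne_zero h1
  obtain ⟨b, hb, hxb⟩ := bumps_ne_zero h2
  obtain ⟨h3, h4⟩ := hsep a ha b hb
  have h3' : (2 : ℝ) ≤ (a : ℝ) - (b : ℝ) := by exact_mod_cast h3
  have h4' : (a : ℝ) - (b : ℝ) ≤ (B : ℝ) := by exact_mod_cast h4
  rw [abs_lt] at hxa hxb
  constructor <;> linarith [hxa.1, hxa.2, hxb.1, hxb.2]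

lemma kern_nonneg (hsep : ∀ a ∈ E1, ∀ b ∈ E2, 2 ≤ a - b ∧ a - b ≤ (B : ℤ)) (x t : ℝ) :
    0 ≤ kern E1 E2 E3 x t := by
  by_cases h : kern E1 E2 E3 x t = 0
  · rw [h]
  · have ht := (kern_support hsep h).1
    exact div_nonneg (mul_nonneg (mul_nonneg (bumps_nonneg _ _) (bumps_nonneg _ _))
      (bumps_nonneg _ _)) (by linarith)

lemma kern_le_one (hsep : ∀ a ∈ E1, ∀ b ∈ E2, 2 ≤ a - b ∧ a - b ≤ (B : ℤ)) (x t : ℝ) :
    kern E1 E2 E3 x t ≤ (Icc (1 : ℝ) ((B : ℝ) + 1)).indicator (fun _ => (1 : ℝ)) t := by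
  by_cases h : kern E1 E2 E3 x t = 0
  · rw [h]; exact indicator_nonneg (fun _ _ => zero_le_one) t
  · have ht := kern_support hsep h
    rw [indicator_of_mem ht, kern, div_le_one (by linarith [ht.1])]
    calc _ ≤ (1 : ℝ) * 1 * 1 :=
          mul_le_mul (mul_le_mul (bumps_le_one _ _) (bumps_le_one _ _) (bumps_nonneg _ _)
            zero_le_one) (bumps_le_one _ _) (bumps_nonneg _ _) (by norm_num)
      _ = 1 := by norm_num
      _ ≤ t := ht.1

lemma kern_integrable (hsep : ∀ a ∈ E1, ∀ b ∈ E2, 2 ≤ a - b ∧ a - b ≤ (B : ℤ)) (x : ℝ) :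
    Integrable (kern E1 E2 E3 x) := by
  have hg : Integrable ((Icc (1 : ℝ) ((B : ℝ) + 1)).indicator fun _ => (1 : ℝ)) :=
    (integrable_indicator_iff measurableSet_Icc).mpr (continuous_const.integrableOn_Icc)
  refine hg.mono' ?_ (Eventually.of_forall fun t => ?_)
  · have h1 := bumps_continuous E1
    have h2 := bumps_continuous E2
    have h3 := bumps_continuous E3
    have : Measurable (kern E1 E2 E3 x) :=
      (((h1.comp (continuous_const.sub continuous_id)).mul
        (h2.comp (continuous_const.sub (continuous_const.mul continuous_id)))).mul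
        (h3.comp (continuous_const.sub (continuous_const.mul continuous_id)))).measurable.div
        measurable_id
    exact this.aestronglyMeasurable
  · rw [Real.norm_eq_abs, abs_of_nonneg (kern_nonneg hsep x t)]
    exact kern_le_one hsep x t

lemma kern_integral_ge (hsep : ∀ a ∈ E1, ∀ b ∈ E2, 2 ≤ a - b ∧ a - b ≤ (B : ℤ))
    (hE : ∀ x ∈ X, ∀ t ∈ F x, x - t ∈ E1 ∧ x - 2 * t ∈ E2 ∧ x - 3 * t ∈ E3)
    {x : ℤ} (hx : x ∈ X) {y : ℝ} (hy : |y - (x : ℝ)| ≤ 1/16) :
    ((F x).card : ℝ) * (1/8) / ((B : ℝ) + 1) ≤ ∫ t, kern E1 E2 E3 y t := by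
  set I : ℤ → Set ℝ := fun t => Icc ((t : ℝ) - 1/16) ((t : ℝ) + 1/16) with hI
  set G : ℝ → ℝ := fun s => ∑ t ∈ F x, (I t).indicator (fun _ => 1 / ((B : ℝ) + 1)) s with hG
  have hGint : Integrable G :=
    integrable_finsetSum _ fun t _ =>
      (integrable_indicator_iff measurableSet_Icc).mpr continuous_const.integrableOn_Icc
  have hle : ∀ s, G s ≤ kern E1 E2 E3 y s := by
    intro s
    by_cases h : ∃ t ∈ F x, s ∈ I t
    · obtain ⟨t, ht, hs⟩ := h
      have huniq : G s = 1 / ((B : ℝ) + 1) := by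
        rw [hG]
        simp only
        rw [Finset.sum_eq_single_of_mem t ht, indicator_of_mem hs]
        intro t' _ hne
        apply indicator_of_notMem
        intro hs'
        have h1 : (1 : ℝ) ≤ |(t' : ℝ) - (t : ℝ)| := by
          exact_mod_cast Int.one_le_abs (sub_ne_zero.mpr hne)
        simp only [hI, mem_Icc] at hs hs'
        rcases abs_cases ((t' : ℝ) - (t : ℝ)) with ⟨h2, -⟩ | ⟨h2, -⟩ <;>
          linarith [hs.1, hs.2, hs'.1, hs'.2]
      obtain ⟨e1, e2, e3⟩ := hE x hx t ht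
      simp only [hI, mem_Icc] at hs
      rw [abs_le] at hy
      have b1 : bumps E1 (y - s) = 1 := bumps_eq_one e1 (by
        push_cast; rw [abs_le]; constructor <;> linarith)
      have b2 : bumps E2 (y - 2 * s) = 1 := bumps_eq_one e2 (by
        push_cast; rw [abs_le]; constructor <;> linarith)
      have b3 : bumps E3 (y - 3 * s) = 1 := bumps_eq_one e3 (by
        push_cast; rw [abs_le]; constructor <;> linarith)
      have hk : kern E1 E2 E3 y s = 1 / s := by rw [kern, b1, b2, b3]; simp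
      by_cases hs0 : s = 0
      · exfalso
        obtain ⟨h3, -⟩ := hsep _ e1 _ e2
        have h3' : (2 : ℝ) ≤ (t : ℝ) := by
          have : (2 : ℤ) ≤ t := by omega
          exact_mod_cast this
        linarith
      · have hne : kern E1 E2 E3 y s ≠ 0 := by rw [hk]; exact one_div_ne_zero hs0
        have hb := kern_support hsep hne
        rw [huniq, hk]
        exact one_div_le_one_div_of_le (by linarith [hb.1]) hb.2
    · push Not at h
      have : G s = 0 := Finset.sum_eq_zero fun t ht => indicator_of_notMem (h t ht) _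
      rw [this]
      exact kern_nonneg hsep y s
  calc ((F x).card : ℝ) * (1/8) / ((B : ℝ) + 1) = ∫ s, G s := by
        rw [hG, integral_finsetSum _ fun t _ =>
          (integrable_indicator_iff measurableSet_Icc).mpr continuous_const.integrableOn_Icc]
        simp only [hI, integral_indicator_const _ measurableSet_Icc, Measure.real,
          Real.volume_Icc, smul_eq_mul]
        have h8 : ∀ t : ℤ, ((t : ℝ) + 1/16) - ((t : ℝ) - 1/16) = 1/8 := fun t => by ring
        simp only [h8]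
        rw [ENNReal.toReal_ofReal (by norm_num), Finset.sum_const, nsmul_eq_mul]
        ring
    _ ≤ _ := integral_mono hGint (kern_integrable hsep y) hle

/-- A finite configuration yields test functions with a large trilinear Hilbert transform. -/
theorem exists_test_functions (hsep : ∀ a ∈ E1, ∀ b ∈ E2, 2 ≤ a - b ∧ a - b ≤ (B : ℤ))
    (hE : ∀ x ∈ X, ∀ t ∈ F x, x - t ∈ E1 ∧ x - 2 * t ∈ E2 ∧ x - 3 * t ∈ E3)
    {m : ℝ} (hm : 0 ≤ m) (hF : ∀ x ∈ X, m ≤ ((F x).card : ℝ))
    (p1 p2 p3 : ℝ≥0∞) {r : ℝ} (hr : 0 < r) :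
    ∃ f1 f2 f3 : 𝓢(ℝ, ℂ), ∃ g : ℝ → ℂ,
      (∀ x : ℝ, Tendsto (fun q : ℝ × ℝ => ∫ t in {t : ℝ | q.1 < |t| ∧ |t| < q.2},
          f1 (x - t) * f2 (x - 2 * t) * f3 (x - 3 * t) / (t : ℂ))
        ((𝓝[>] (0 : ℝ)) ×ˢ atTop) (𝓝 (g x))) ∧
      eLpNorm f1 p1 volume ≤ (E1.card : ℝ≥0∞) ^ (p1⁻¹).toReal ∧
      eLpNorm f2 p2 volume ≤ (E2.card : ℝ≥0∞) ^ (p2⁻¹).toReal ∧
      eLpNorm f3 p3 volume ≤ (E3.card : ℝ≥0∞) ^ (p3⁻¹).toReal ∧
      ENNReal.ofReal (m * (1/8) / ((B : ℝ) + 1) * ((X.card : ℝ) / 8) ^ (1/r)) ≤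
        eLpNorm g (ENNReal.ofReal r) volume := by
  refine ⟨test E1, test E2, test E3, fun x => ((∫ t, kern E1 E2 E3 x t : ℝ) : ℂ), ?_,
    eLpNorm_test_le _ _, eLpNorm_test_le _ _, eLpNorm_test_le _ _, ?_⟩
  · intro x
    refine tendsto_nhds_of_eventually_eq ?_
    have hev : ∀ᶠ q : ℝ × ℝ in (𝓝[>] (0 : ℝ)) ×ˢ atTop, q.1 < 1 ∧ (B : ℝ) + 1 < q.2 :=
      (eventually_nhdsWithin_of_eventually_nhds (eventually_lt_nhds one_pos)).prod_mk
        (eventually_gt_atTop _)
    filter_upwards [hev] with q hq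
    have heq : (fun t : ℝ => test E1 (x - t) * test E2 (x - 2 * t) * test E3 (x - 3 * t) / (t : ℂ))
        = fun t => ((kern E1 E2 E3 x t : ℝ) : ℂ) := by
      funext t
      simp only [test_apply, kern]
      push_cast
      rfl
    rw [heq, setIntegral_eq_integral_of_forall_compl_eq_zero, integral_complex_ofReal]
    intro t ht
    by_contra hne
    have hk : kern E1 E2 E3 x t ≠ 0 := by
      intro h; rw [h] at hne; exact hne Complex.ofReal_zero
    obtain ⟨h1, h2⟩ := kern_support hsep hk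
    apply ht
    rw [mem_ofPred_eq, abs_of_nonneg (by linarith)]
    exact ⟨by linarith [hq.1], by linarith [hq.2]⟩
  · set a : ℝ := m * (1/8) / ((B : ℝ) + 1) with ha
    have ha0 : 0 ≤ a := by positivity
    set U : Set ℝ := ⋃ x ∈ X, Icc ((x : ℝ) - 1/16) ((x : ℝ) + 1/16) with hU
    have h1 : eLpNorm (U.indicator fun _ => a) (ENNReal.ofReal r) volume ≤
        eLpNorm (fun x => ((∫ t, kern E1 E2 E3 x t : ℝ) : ℂ)) (ENNReal.ofReal r) volume := by
      apply eLpNorm_mono
      intro y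
      rw [Complex.norm_real, Real.norm_eq_abs, Real.norm_eq_abs]
      by_cases hy : y ∈ U
      · rw [indicator_of_mem hy, abs_of_nonneg ha0]
        simp only [hU, mem_iUnion, mem_Icc] at hy
        obtain ⟨x, hx, h2, h3⟩ := hy
        refine le_trans ?_ (le_abs_self _)
        refine le_trans ?_ (kern_integral_ge hsep hE hx (by rw [abs_le]; constructor <;> linarith))
        rw [ha]
        have hFx := hF x hx
        gcongr
      · rw [indicator_of_notMem hy]; simp
    refine le_trans ?_ h1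
    have hmeas : MeasurableSet U :=
      Finset.measurableSet_biUnion _ fun x _ => measurableSet_Icc
    have hvol : volume U = ENNReal.ofReal ((X.card : ℝ) / 8) := by
      rw [hU, measure_biUnion_finset]
      · simp only [Real.volume_Icc]
        have h8 : ∀ t : ℤ, ((t : ℝ) + 1/16) - ((t : ℝ) - 1/16) = 1/8 := fun t => by ring
        simp only [h8, Finset.sum_const, nsmul_eq_mul]
        rw [← ENNReal.ofReal_natCast, ← ENNReal.ofReal_mul (by positivity)]
        congr 1; ring
      · intro u _ v _ huv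
        rw [Function.onFun, Set.disjoint_left]
        intro s hs hs'
        have h1 : (1 : ℝ) ≤ |(u : ℝ) - (v : ℝ)| := by
          exact_mod_cast Int.one_le_abs (sub_ne_zero.mpr huv)
        simp only [mem_Icc] at hs hs'
        rcases abs_cases ((u : ℝ) - (v : ℝ)) with ⟨h2, -⟩ | ⟨h2, -⟩ <;>
          linarith [hs.1, hs.2, hs'.1, hs'.2]
      · exact fun x _ => measurableSet_Icc
    rw [eLpNorm_indicator_const hmeas (by simpa using hr) ENNReal.ofReal_ne_top, hvol,
      ENNReal.toReal_ofReal hr.le, Real.enorm_of_nonneg ha0,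
      ENNReal.ofReal_rpow_of_nonneg (by positivity) (by positivity),
      ← ENNReal.ofReal_mul ha0]

end

end Vale.Agent.P141
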