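import Mathlib

/-! P141: random linear compression of a configuration in a lattice to the integers. -/

open Finset

namespace Vale.Agent.P141

variable {n N : ℕ}

/-- The linear map with coefficient vector `a`, reduced modulo `N`. -/
def lin (a : Fin n → ZMod N) : (Fin n → ℤ) →+ ZMod N where
  toFun x := ∑ i, a i * (x i : ZMod N)
  map_zero' := by simp
  map_add' x y := by simp [mul_add, Finset.sum_add_distrib]

/-- Number of colliding ordered pairs in `S` under `f`. -/
def coll {α β : Type*} [DecidableEq β] (f : α → β) (S : Finset α) : ℕ :=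
  ∑ x ∈ S, (S.filter fun y => f x = f y).card

lemma coll_mono {α β : Type*} [DecidableEq β] (f : α → β) {S T : Finset α} (h : S ⊆ T) :
    coll f S ≤ coll f T := by
  unfold coll
  calc ∑ x ∈ S, (S.filter fun y => f x = f y).card
      ≤ ∑ x ∈ S, (T.filter fun y => f x = f y).card :=
        Finset.sum_le_sum fun x _ => Finset.card_le_card (Finset.filter_subset_filter _ h)
    _ ≤ _ := Finset.sum_le_sum_of_subset h

lemma sq_card_le_image_mul_coll {α β : Type*} [DecidableEq β] (f : α → β) (S : Finset α) :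
    (S.card : ℝ) ^ 2 ≤ ((S.image f).card : ℝ) * (coll f S : ℝ) := by
  have h1 : (S.card : ℝ) = ∑ y ∈ S.image f, ((S.filter fun z => f z = y).card : ℝ) := by
    have := Finset.card_eq_sum_card_fiberwise (f := f) (s := S) (t := S.image f)
      (fun x hx => Finset.mem_image_of_mem f hx)
    exact_mod_cast this
  have h2 : (coll f S : ℝ) = ∑ y ∈ S.image f, ((S.filter fun z => f z = y).card : ℝ) ^ 2 := by
    unfold coll
    push_cast
    rw [← Finset.sum_fiberwise_of_maps_to (g := f) (t := S.image f)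
      (fun x hx => Finset.mem_image_of_mem f hx)]
    refine Finset.sum_congr rfl fun y _ => ?_
    have : ∀ x ∈ S.filter (fun z => f z = y),
        ((S.filter fun z => f x = f z).card : ℝ) = ((S.filter fun z => f z = y).card : ℝ) := by
      intro x hx
      rw [Finset.mem_filter] at hx
      congr 2
      ext z
      simp [hx.2, eq_comm]
    rw [Finset.sum_congr rfl this, Finset.sum_const, nsmul_eq_mul]
    ring
  rw [h1, h2]
  exact sq_sum_le_card_mul_sum_sq

lemma card_lin_zero [NeZero N] [Fact N.Prime] {d : Fin n → ℤ}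
    (hd : ∃ i, (d i : ZMod N) ≠ 0) :
    (univ.filter fun a : Fin n → ZMod N => lin a d = 0).card * N = N ^ n := by
  obtain ⟨i, hi⟩ := hd
  let φ : (Fin n → ZMod N) →+ ZMod N :=
    { toFun := fun a => lin a d
      map_zero' := by simp [lin]
      map_add' := fun a b => by simp [lin, add_mul, Finset.sum_add_distrib] }
  have hsurj : Function.Surjective φ := by
    intro s
    refine ⟨Pi.single i (s / (d i : ZMod N)), ?_⟩
    show ∑ j, (Pi.single i (s / (d i : ZMod N)) : Fin n → ZMod N) j * (d j : ZMod N) = s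
    rw [Finset.sum_eq_single i]
    · rw [Pi.single_eq_same, div_mul_cancel₀ _ hi]
    · intro j _ hj; simp [hj]
    · simp
  have h := φ.ker.card_mul_index
  rw [AddSubgroup.index_ker, φ.range_eq_top.mpr hsurj, AddSubgroup.card_top,
    Nat.card_fun, Nat.card_zmod, Nat.card_fin, Nat.card_eq_fintype_card] at h
  rw [← h]
  congr 1
  rw [Fintype.card_subtype]
  refine congrArg Finset.card (Finset.filter_congr fun a _ => ?_)
  exact Iff.rfl

lemma sum_coll_le [NeZero N] [Fact N.Prime] {D : ℕ} (hD : 2 * D < N) (S : Finset (Fin n → ℤ))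
    (hS : ∀ x ∈ S, ∀ i, |x i| ≤ (D : ℤ)) (hcard : S.card ≤ N) :
    ∑ a : Fin n → ZMod N, coll (lin a) S ≤ 2 * S.card * N ^ n := by
  unfold coll
  rw [Finset.sum_comm]
  have key : ∀ x ∈ S, (∑ a : Fin n → ZMod N, (S.filter fun y => lin a x = lin a y).card) ≤
      2 * N ^ n := by
    intro x hx
    simp only [Finset.card_filter]
    rw [Finset.sum_comm, ← Finset.add_sum_erase S _ hx]
    have h1 : (∑ a : Fin n → ZMod N, if lin a x = lin a x then 1 else 0) ≤ N ^ n := by
      simp
    have h2 : (∑ y ∈ S.erase x, ∑ a : Fin n → ZMod N, if lin a x = lin a y then 1 else 0) * N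
        ≤ N ^ n * N := by
      rw [Finset.sum_mul]
      have hy : ∀ y ∈ S.erase x,
          (∑ a : Fin n → ZMod N, if lin a x = lin a y then 1 else 0) * N = N ^ n := by
        intro y hy
        rw [Finset.mem_erase] at hy
        rw [← Finset.card_filter]
        have hne : ∃ i, (((x - y) i : ℤ) : ZMod N) ≠ 0 := by
          obtain ⟨i, hi⟩ := Function.ne_iff.mp hy.1.symm
          refine ⟨i, fun h0 => ?_⟩
          rw [ZMod.intCast_zmod_eq_zero_iff_dvd] at h0
          have h3 : |(x - y) i| ≤ 2 * (D : ℤ) := by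
            have := hS x hx i
            have := hS y hy.2 i
            simp only [Pi.sub_apply]
            rw [abs_le] at *
            constructor <;> omega
          have h4 : (x - y) i = 0 :=
            Int.eq_zero_of_abs_lt_dvd h0 (lt_of_le_of_lt h3 (by exact_mod_cast hD))
          simp only [Pi.sub_apply, sub_eq_zero] at h4
          exact hi h4
        rw [← card_lin_zero hne]
        congr 2
        refine Finset.filter_congr fun a _ => ?_
        rw [map_sub, sub_eq_zero]
      rw [Finset.sum_congr rfl hy, Finset.sum_const, smul_eq_mul, mul_comm (N ^ n) N]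
      exact Nat.mul_le_mul_right _ ((Finset.card_erase_le).trans hcard)
    have h3 : (∑ y ∈ S.erase x, ∑ a : Fin n → ZMod N, if lin a x = lin a y then 1 else 0)
        ≤ N ^ n := Nat.le_of_mul_le_mul_right h2 (NeZero.pos N)
    omega
  calc _ ≤ ∑ _x ∈ S, 2 * N ^ n := Finset.sum_le_sum key
    _ = _ := by rw [Finset.sum_const, smul_eq_mul]; ring

/-- Lifts to a short interval of the image of `E` modulo `N`. -/
noncomputable def lifts (N : ℕ) (a : Fin n → ZMod N) (E : Finset (Fin n → ℤ)) (lo hi : ℤ) : Finset ℤ :=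
  (Finset.Ico (lo * N) (hi * N)).filter fun z => (z : ZMod N) ∈ E.image (lin a)

lemma card_lifts_le [NeZero N] (a : Fin n → ZMod N) (E : Finset (Fin n → ℤ)) (lo : ℤ) (k : ℕ) :
    (lifts N a E lo (lo + k)).card ≤ k * E.card := by
  have hN : (0 : ℤ) < N := by exact_mod_cast NeZero.pos N
  calc (lifts N a E lo (lo + k)).card
      ≤ (((E.image (lin a)) ×ˢ Finset.Ico lo (lo + k))).card := by
        refine Finset.card_le_card_of_injOn (fun z : ℤ => ((z : ZMod N), z / (N : ℤ))) ?_ ?_
        · intro z hz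
          simp only [lifts, Finset.coe_filter, Finset.mem_Ico, Set.mem_ofPred_eq] at hz
          simp only [Finset.coe_product, Set.mem_prod, Finset.mem_coe, Finset.mem_Ico]
          refine ⟨hz.2, Int.le_ediv_of_mul_le hN hz.1.1, ?_⟩
          exact Int.ediv_lt_of_lt_mul hN hz.1.2
        · intro z _ w _ hzw
          simp only [Prod.mk.injEq] at hzw
          obtain ⟨h1, h2⟩ := hzw
          rw [ZMod.intCast_eq_intCast_iff'] at h1
          rw [Int.emod_def, Int.emod_def, h2] at h1
          linarith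
    _ = (E.image (lin a)).card * k := by rw [Finset.card_product]; simp
    _ ≤ E.card * k := Nat.mul_le_mul_right _ Finset.card_image_le
    _ = _ := Nat.mul_comm _ _

/-- A configuration in `ℤⁿ` is compressed to one in an interval of length `O(|X|)` in `ℤ`. -/
theorem compress {X : Finset (Fin n → ℤ)} {F : (Fin n → ℤ) → Finset (Fin n → ℤ)}
    {E1 E2 E3 : Finset (Fin n → ℤ)} {m D : ℕ} (hm0 : 0 < m) (hmX : m ≤ X.card)
    (hD : 2 * D ≤ X.card) (hXD : ∀ x ∈ X, ∀ i, |x i| ≤ (D : ℤ))
    (hFD : ∀ x ∈ X, ∀ t ∈ F x, ∀ i, |t i| ≤ (D : ℤ))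
    (hF : ∀ x ∈ X, m ≤ (F x).card)
    (hE : ∀ x ∈ X, ∀ t ∈ F x, x - t ∈ E1 ∧ x - 2 • t ∈ E2 ∧ x - 3 • t ∈ E3) :
    ∃ (B : ℕ) (X' : Finset ℤ) (F' : ℤ → Finset ℤ) (E1' E2' E3' : Finset ℤ),
      B ≤ 14 * X.card ∧
      (∀ a ∈ E1', ∀ b ∈ E2', 2 ≤ a - b ∧ a - b ≤ (B : ℤ)) ∧
      (∀ x ∈ X', ∀ t ∈ F' x, x - t ∈ E1' ∧ x - 2 * t ∈ E2' ∧ x - 3 * t ∈ E3') ∧
      (∀ x ∈ X', (m : ℝ) / 8 ≤ ((F' x).card : ℝ)) ∧
      (X.card : ℝ) / 16 ≤ (X'.card : ℝ) ∧
      E1'.card ≤ 2 * E1.card ∧ E2'.card ≤ 3 * E2.card ∧ E3'.card ≤ 4 * E3.card := by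
  classical
  have hX0 : X.card ≠ 0 := by omega
  obtain ⟨N, hNp, hN1, hN2⟩ := Nat.exists_prime_lt_and_le_two_mul X.card hX0
  have : Fact N.Prime := ⟨hNp⟩
  have : NeZero N := ⟨hNp.ne_zero⟩
  have hFm : ∀ x ∈ X, ∃ G ⊆ F x, G.card = m := fun x hx => Finset.exists_subset_card_eq (hF x hx)
  choose! G hGsub hGcard using hFm
  -- choose the linear map
  have hsum : (∑ a : Fin n → ZMod N, (m * coll (lin a) X + ∑ x ∈ X, coll (lin a) (G x))) ≤
      ∑ _a : Fin n → ZMod N, 4 * X.card * m := by
    rw [Finset.sum_add_distrib, ← Finset.mul_sum, Finset.sum_comm, Finset.sum_const,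
      Finset.card_univ, Fintype.card_fun, Fintype.card_fin, ZMod.card, smul_eq_mul]
    have h1 := sum_coll_le (by omega) X hXD hN1.le
    have h2 : (∑ x ∈ X, ∑ a : Fin n → ZMod N, coll (lin a) (G x)) ≤
        ∑ _x ∈ X, 2 * m * N ^ n := by
      refine Finset.sum_le_sum fun x hx => ?_
      have := sum_coll_le (by omega : 2 * D < N) (G x)
        (fun t ht i => hFD x hx t (hGsub x hx ht) i) (by rw [hGcard x hx]; omega)
      rwa [hGcard x hx] at this
    rw [Finset.sum_const, smul_eq_mul] at h2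
    have h3 := Nat.mul_le_mul_left m h1
    nlinarith
  obtain ⟨a, -, ha⟩ := Finset.exists_le_of_sum_le Finset.univ_nonempty hsum
  have hcX : coll (lin a) X ≤ 4 * X.card := by
    have : m * coll (lin a) X ≤ 4 * X.card * m := by omega
    replace : m * coll (lin a) X ≤ m * (4 * X.card) := this.trans_eq (Nat.mul_comm _ _)
    exact Nat.le_of_mul_le_mul_left this hm0
  set Good := X.filter fun x => coll (lin a) (G x) ≤ 8 * m with hGood
  have hbad : 8 * m * (X.filter fun x => ¬ coll (lin a) (G x) ≤ 8 * m).card ≤ 4 * X.card * m := by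
    calc 8 * m * (X.filter fun x => ¬ coll (lin a) (G x) ≤ 8 * m).card
        = ∑ _x ∈ X.filter (fun x => ¬ coll (lin a) (G x) ≤ 8 * m), 8 * m := by
          rw [Finset.sum_const, smul_eq_mul, mul_comm]
      _ ≤ ∑ x ∈ X.filter (fun x => ¬ coll (lin a) (G x) ≤ 8 * m), coll (lin a) (G x) :=
          Finset.sum_le_sum fun x hx => by rw [Finset.mem_filter] at hx; omega
      _ ≤ ∑ x ∈ X, coll (lin a) (G x) := Finset.sum_le_sum_of_subset (Finset.filter_subset _ _)
      _ ≤ _ := by omega
  have hgood : X.card ≤ 2 * Good.card := by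
    have h1 : Good.card + (X.filter fun x => ¬ coll (lin a) (G x) ≤ 8 * m).card = X.card :=
      Finset.card_filter_add_card_filter_not _
    have h2 : 2 * (X.filter fun x => ¬ coll (lin a) (G x) ≤ 8 * m).card ≤ X.card :=
      Nat.le_of_mul_le_mul_left (show 4 * m * (2 * (X.filter fun x =>
        ¬ coll (lin a) (G x) ≤ 8 * m).card) ≤ 4 * m * X.card by nlinarith) (by omega)
    omega
  let π : (Fin n → ℤ) → ℤ := fun x => ((lin a x).val : ℤ)
  let F' : ℤ → Finset ℤ := fun z =>
    if h : ∃ x ∈ Good, π x = z then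
      (G h.choose).image fun t => π t + 4 * (N : ℤ) else ∅
  refine ⟨7 * N, Good.image π, F', lifts N a E1 (-5) (-5 + (2 : ℕ)),
    lifts N a E2 (-10) (-10 + (3 : ℕ)), lifts N a E3 (-15) (-15 + (4 : ℕ)),
    by omega, ?_, ?_, ?_, ?_, card_lifts_le _ _ _ _, card_lifts_le _ _ _ _,
    card_lifts_le _ _ _ _⟩
  · intro u hu v hv
    simp only [lifts, Finset.mem_filter, Finset.mem_Ico] at hu hv
    have : (2 : ℤ) ≤ N := by exact_mod_cast hNp.two_le
    push_cast at *
    constructor <;> nlinarith [hu.1.1, hu.1.2, hv.1.1, hv.1.2]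
  · intro z hz s hs
    have h : ∃ x ∈ Good, π x = z := Finset.mem_image.mp hz
    simp only [F', dif_pos h, Finset.mem_image] at hs
    obtain ⟨t, ht, rfl⟩ := hs
    obtain ⟨hx, hxz⟩ := h.choose_spec
    set x := h.choose
    have hxX : x ∈ X := (Finset.mem_filter.mp hx).1
    obtain ⟨e1, e2, e3⟩ := hE x hxX t (hGsub x hxX ht)
    have bx0 : 0 ≤ π x := Int.natCast_nonneg _
    have bt0 : 0 ≤ π t := Int.natCast_nonneg _
    have bx1 : π x < N := by
      show ((lin a x).val : ℤ) < (N : ℤ)
      exact_mod_cast ZMod.val_lt (lin a x)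
    have bt1 : π t < N := by
      show ((lin a t).val : ℤ) < (N : ℤ)
      exact_mod_cast ZMod.val_lt (lin a t)
    have cx : ((π x : ℤ) : ZMod N) = lin a x := by simp [π]
    have ct : ((π t : ℤ) : ZMod N) = lin a t := by simp [π]
    rw [← hxz]
    simp only [lifts, Finset.mem_filter, Finset.mem_Ico, Finset.mem_image]
    push_cast
    refine ⟨⟨⟨?_, ?_⟩, _, e1, ?_⟩, ⟨⟨?_, ?_⟩, _, e2, ?_⟩, ⟨⟨?_, ?_⟩, _, e3, ?_⟩⟩ <;>
      first
        | nlinarith
        | (simp only [map_sub, map_nsmul]
           simp only [cx, ct, ZMod.natCast_self, nsmul_eq_mul]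
           push_cast; ring)
  · intro z hz
    have h : ∃ x ∈ Good, π x = z := Finset.mem_image.mp hz
    simp only [F', dif_pos h]
    obtain ⟨hx, -⟩ := h.choose_spec
    set x := h.choose
    obtain ⟨hxX, hxc⟩ := Finset.mem_filter.mp hx
    have h1 : ((G x).image fun t => π t + 4 * (N : ℤ)).card = ((G x).image (lin a)).card := by
      have : (fun t => π t + 4 * (N : ℤ)) = (fun s : ZMod N => (s.val : ℤ) + 4 * N) ∘ lin a := rfl
      rw [this, ← Finset.image_image, Finset.card_image_of_injective]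
      intro u v huv
      simp only [add_left_inj, Nat.cast_inj] at huv
      exact ZMod.val_injective N huv
    rw [h1]
    have h2 := sq_card_le_image_mul_coll (lin a) (G x)
    rw [hGcard x hxX] at h2
    have h3 : (coll (lin a) (G x) : ℝ) ≤ 8 * (m : ℝ) := by exact_mod_cast hxc
    have hmR : (0 : ℝ) < m := by exact_mod_cast hm0
    nlinarith [mul_le_mul_of_nonneg_left h3 (Nat.cast_nonneg ((G x).image (lin a)).card)]
  · have h1 : (Good.image π).card = (Good.image (lin a)).card := by
      have : π = (fun s : ZMod N => (s.val : ℤ)) ∘ lin a := rfl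
      rw [this, ← Finset.image_image, Finset.card_image_of_injective]
      intro u v huv
      simp only [Nat.cast_inj] at huv
      exact ZMod.val_injective N huv
    rw [h1]
    have h2 := sq_card_le_image_mul_coll (lin a) Good
    have h3 : (coll (lin a) Good : ℝ) ≤ 4 * (X.card : ℝ) := by
      exact_mod_cast (coll_mono (lin a) (Finset.filter_subset _ X)).trans hcX
    have h4 : (X.card : ℝ) ≤ 2 * (Good.card : ℝ) := by exact_mod_cast hgood
    have h5 : (0 : ℝ) < X.card := by exact_mod_cast Nat.pos_of_ne_zero hX0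
    nlinarith [mul_le_mul_of_nonneg_left h3 (Nat.cast_nonneg (Good.image (lin a)).card)]

end Vale.Agent.P141
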