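import Mathlib

/-! P141: lattice points in Euclidean balls and the configuration in high dimension. -/

open Finset MeasureTheory Filter Topology
open scoped Pointwise

namespace Vale.Agent.P141

variable {n : ℕ}

/-- Sum of squares of the coordinates of an integer vector. -/
noncomputable def sq (z : Fin n → ℤ) : ℝ := ∑ i, (z i : ℝ) ^ 2

/-- Integer points in the Euclidean ball of radius `R`. -/
noncomputable def latt (n : ℕ) (R : ℝ) : Finset (Fin n → ℤ) :=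
  (Fintype.piFinset fun _ => Finset.Icc (-⌈R⌉) ⌈R⌉).filter fun z => sq z ≤ R ^ 2

lemma abs_coord_le {z : Fin n → ℤ} {R : ℝ} (hR : 0 ≤ R) (h : sq z ≤ R ^ 2) (i : Fin n) :
    |(z i : ℝ)| ≤ R := by
  apply abs_le_of_sq_le_sq _ hR
  exact (Finset.single_le_sum (f := fun j => (z j : ℝ) ^ 2) (fun j _ => sq_nonneg _)
    (Finset.mem_univ i)).trans h

lemma mem_latt {z : Fin n → ℤ} {R : ℝ} (hR : 0 ≤ R) : z ∈ latt n R ↔ sq z ≤ R ^ 2 := by
  simp only [latt, Finset.mem_filter, Fintype.mem_piFinset, Finset.mem_Icc, and_iff_right_iff_imp]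
  intro h i
  have h1 := abs_le.mp (abs_coord_le hR h i)
  have h2 := Int.le_ceil R
  constructor
  · have : ((-⌈R⌉ : ℤ) : ℝ) ≤ (z i : ℝ) := by push_cast; linarith
    exact_mod_cast this
  · have : (z i : ℝ) ≤ (⌈R⌉ : ℝ) := by linarith
    exact_mod_cast this

lemma zero_mem_latt {R : ℝ} (hR : 0 ≤ R) : (0 : Fin n → ℤ) ∈ latt n R := by
  rw [mem_latt hR]; simp [sq]; positivity

/-- The Euclidean ball in `Fin n → ℝ`. -/
def eball (n : ℕ) (R : ℝ) : Set (Fin n → ℝ) := {y | ∑ i, y i ^ 2 ≤ R ^ 2}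

/-- Volume of the unit ball. -/
noncomputable def V (n : ℕ) : ℝ := (volume (eball n 1)).toReal

lemma eball_subset (R : ℝ) (hR : 0 ≤ R) :
    eball n R ⊆ Set.univ.pi fun _ => Set.Icc (-R) R := by
  intro y hy i _
  have h : |y i| ≤ R := abs_le_of_sq_le_sq
    ((Finset.single_le_sum (f := fun j => y j ^ 2) (fun j _ => sq_nonneg _)
      (Finset.mem_univ i)).trans hy) hR
  exact abs_le.mp h

lemma volume_eball_one_lt_top : volume (eball n 1) < ⊤ := by
  refine lt_of_le_of_lt (measure_mono (eball_subset 1 zero_le_one)) ?_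
  rw [volume_pi_pi]
  exact ENNReal.prod_lt_top fun i _ => by simp

lemma V_pos : 0 < V n := by
  refine ENNReal.toReal_pos ?_ volume_eball_one_lt_top.ne
  refine ne_of_gt (lt_of_lt_of_le (b := volume {y : Fin n → ℝ | ∑ i, y i ^ 2 < 1}) ?_ ?_)
  · exact (isOpen_lt (by fun_prop) continuous_const).measure_pos volume ⟨0, by simp⟩
  · refine measure_mono fun y hy => ?_
    simp only [eball, Set.mem_ofPred_eq, one_pow] at hy ⊢
    exact hy.le

lemma volume_eball {R : ℝ} (hR : 0 < R) :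
    volume (eball n R) = ENNReal.ofReal (R ^ n * V n) := by
  have h : eball n R = R • eball n 1 := by
    ext y
    rw [Set.mem_smul_set_iff_inv_smul_mem₀ hR.ne']
    simp only [eball, Set.mem_ofPred_eq, Pi.smul_apply, smul_eq_mul, mul_pow, ← Finset.mul_sum,
      one_pow, inv_pow]
    rw [inv_mul_le_iff₀ (by positivity), mul_one]
  rw [h, Measure.addHaar_smul, Module.finrank_fin_fun, abs_of_pos (by positivity),
    ENNReal.ofReal_mul (by positivity), V, ENNReal.ofReal_toReal volume_eball_one_lt_top.ne]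

/-- The half open unit cube around an integer point. -/
def cube (z : Fin n → ℤ) : Set (Fin n → ℝ) :=
  Set.univ.pi fun i => Set.Ico ((z i : ℝ) - 1/2) ((z i : ℝ) + 1/2)

lemma volume_cubes (S : Finset (Fin n → ℤ)) :
    volume (⋃ z ∈ S, cube z) = (S.card : ENNReal) := by
  rw [measure_biUnion_finset]
  · have : ∀ z : Fin n → ℤ, volume (cube z) = 1 := by
      intro z
      rw [cube, volume_pi_pi]
      refine Finset.prod_eq_one fun i _ => ?_
      rw [Real.volume_Ico, show (z i : ℝ) + 1/2 - ((z i : ℝ) - 1/2) = 1 by ring]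
      simp
    simp [this]
  · intro u _ v _ huv
    rw [Function.onFun, Set.disjoint_left]
    intro y hy hy'
    refine huv (funext fun i => ?_)
    obtain ⟨h1, h2⟩ := hy i (Set.mem_univ i)
    obtain ⟨h3, h4⟩ := hy' i (Set.mem_univ i)
    have h5 : ((u i : ℝ)) < (v i : ℝ) + 1 := by linarith
    have h6 : ((v i : ℝ)) < (u i : ℝ) + 1 := by linarith
    have h5' : u i < v i + 1 := by exact_mod_cast h5
    have h6' : v i < u i + 1 := by exact_mod_cast h6
    omega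
  · exact fun z _ => MeasurableSet.univ_pi fun i => measurableSet_Ico

lemma sq_add_le {η : ℝ} (hη : 0 < η) (u v : ℝ) :
    (u + v) ^ 2 ≤ (1 + η) * u ^ 2 + (1 + 1/η) * v ^ 2 := by
  have h : 0 ≤ (η * u - v) ^ 2 / η := by positivity
  have : (η * u - v) ^ 2 / η = η * u ^ 2 - 2 * u * v + 1/η * v ^ 2 := by field_simp; ring
  nlinarith

/-- A perturbation by at most `1/2` in each coordinate. -/
lemma sum_sq_perturb {η A : ℝ} (hη : 0 < η) (hη1 : η ≤ 1) (hA : (n : ℝ) ≤ η ^ 2 * A)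
    (u v : Fin n → ℝ) (β : ℝ) (hv : ∀ i, |v i| ≤ 1/2) :
    ∑ i, (u i + β * v i) ^ 2 ≤ (1 + η) * ∑ i, u i ^ 2 + η * β ^ 2 * A := by
  calc ∑ i, (u i + β * v i) ^ 2
      ≤ ∑ i, ((1 + η) * u i ^ 2 + (1 + 1/η) * (β ^ 2 * (1/4))) := by
        refine Finset.sum_le_sum fun i _ => (sq_add_le hη _ _).trans ?_
        rw [mul_pow]
        have : v i ^ 2 ≤ 1/4 := by
          have := abs_le.mp (hv i); nlinarith
        gcongr
    _ = (1 + η) * ∑ i, u i ^ 2 + (1 + 1/η) * (β ^ 2 * (1/4)) * n := by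
        rw [Finset.sum_add_distrib, ← Finset.mul_sum, Finset.sum_const, Finset.card_univ,
          Fintype.card_fin, nsmul_eq_mul]; ring
    _ ≤ _ := by
        have hA0 : 0 ≤ A := by
          by_contra hc; push Not at hc
          have := Nat.cast_nonneg (α := ℝ) n
          nlinarith [pow_pos hη 2]
        have h1 : (1 + 1/η) * (β ^ 2 * (1/4)) * n ≤ (1 + 1/η) * (β ^ 2 * (1/4)) * (η ^ 2 * A) :=
          mul_le_mul_of_nonneg_left hA (by positivity)
        have h2 : (1 + 1/η) * (β ^ 2 * (1/4)) * (η ^ 2 * A) = β ^ 2 * A * η * ((η + 1) / 4) := by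
          field_simp
        have h3 : β ^ 2 * A * η * ((η + 1) / 4) ≤ β ^ 2 * A * η * 1 :=
          mul_le_mul_of_nonneg_left (by linarith) (by positivity)
        linarith

/-- Lattice point count from below. -/
lemma le_card_latt {η a : ℝ} (hη : 0 < η) (hη1 : η ≤ 1) (ha : 0 < a)
    (hn : (n : ℝ) ≤ η ^ 2 * a ^ 2) :
    a ^ n * V n ≤ ((latt n (a * √(1 + 2 * η))).card : ℝ) := by
  have hsub : eball n a ⊆ ⋃ z ∈ latt n (a * √(1 + 2 * η)), cube z := by
    intro y hy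
    refine Set.mem_biUnion (x := fun i => ⌊y i + 1/2⌋) ?_ ?_
    · rw [Finset.mem_coe, mem_latt (by positivity), mul_pow, Real.sq_sqrt (by positivity), sq]
      have h := sum_sq_perturb hη hη1 hn y (fun i => (⌊y i + 1/2⌋ : ℝ) - y i) 1 (fun i => by
        rw [abs_le]
        constructor <;> linarith [Int.floor_le (y i + 1/2), Int.lt_floor_add_one (y i + 1/2)])
      simp only [one_mul, add_sub_cancel, one_pow, mul_one] at h
      simp only [eball, Set.mem_ofPred_eq] at hy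
      nlinarith
    · intro i _
      constructor <;> linarith [Int.floor_le (y i + 1/2), Int.lt_floor_add_one (y i + 1/2)]
  have h := measure_mono (μ := volume) hsub
  rw [volume_eball ha, volume_cubes, ← ENNReal.ofReal_natCast] at h
  exact (ENNReal.ofReal_le_ofReal_iff (Nat.cast_nonneg _)).mp h

/-- Lattice point count from above. -/
lemma card_latt_le {η b : ℝ} (hη : 0 < η) (hη1 : η ≤ 1) (hb : 0 < b)
    (hn : (n : ℝ) ≤ η ^ 2 * b ^ 2) :
    ((latt n b).card : ℝ) ≤ (b * √(1 + 2 * η)) ^ n * V n := by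
  have hsub : (⋃ z ∈ latt n b, cube z) ⊆ eball n (b * √(1 + 2 * η)) := by
    intro y hy
    obtain ⟨z, hz, hyz⟩ := Set.mem_iUnion₂.mp hy
    rw [mem_latt hb.le, sq] at hz
    have h := sum_sq_perturb hη hη1 hn (fun i => (z i : ℝ)) (fun i => y i - (z i : ℝ)) 1
      (fun i => by
        obtain ⟨h1, h2⟩ := hyz i (Set.mem_univ i)
        rw [abs_le]; constructor <;> linarith)
    simp only [one_mul, add_sub_cancel, one_pow, mul_one] at h
    simp only [eball, Set.mem_ofPred_eq, mul_pow]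
    rw [Real.sq_sqrt (by positivity)]
    nlinarith
  have h := measure_mono (μ := volume) hsub
  have := V_pos (n := n)
  rw [volume_eball (by positivity), volume_cubes, ← ENNReal.ofReal_natCast] at h
  exact (ENNReal.ofReal_le_ofReal_iff (by positivity)).mp h

lemma sum_offdiag {X : Finset (Fin n → ℤ)} {i j : Fin n} (hij : i ≠ j)
    (hX : ∀ x ∈ X, Function.update x i (-x i) ∈ X) :
    ∑ x ∈ X, (x i : ℝ) * (x j : ℝ) = 0 := by
  have key : ∑ x ∈ X, (x i : ℝ) * (x j : ℝ) = ∑ x ∈ X, -((x i : ℝ) * (x j : ℝ)) := by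
    refine Finset.sum_nbij' (fun x => Function.update x i (-x i))
      (fun x => Function.update x i (-x i)) hX hX ?_ ?_ ?_
    · intro x _; simp
    · intro x _; simp
    · intro x _
      simp only [Function.update_self, Function.update_of_ne hij.symm]
      push_cast; ring
  rw [Finset.sum_neg_distrib] at key
  linarith

lemma sum_inner_sq (R : ℝ) (hR : 0 ≤ R) (b : Fin n → ℝ) :
    (n : ℝ) * ∑ x ∈ latt n R, (∑ i, (x i : ℝ) * b i) ^ 2 =
      (∑ i, b i ^ 2) * ∑ x ∈ latt n R, sq x := by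
  have hneg : ∀ i, ∀ x ∈ latt n R, Function.update x i (-x i) ∈ latt n R := by
    intro i x hx
    rw [mem_latt hR] at hx ⊢
    refine le_of_eq_of_le (Finset.sum_congr rfl fun k _ => ?_) hx
    by_cases h : k = i
    · subst h; simp
    · rw [Function.update_of_ne h]
  have hdiag : ∀ i j, ∑ x ∈ latt n R, (x i : ℝ) ^ 2 = ∑ x ∈ latt n R, (x j : ℝ) ^ 2 := by
    intro i j
    have hmem : ∀ x ∈ latt n R, x ∘ Equiv.swap i j ∈ latt n R := by
      intro x hx
      rw [mem_latt hR] at hx ⊢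
      refine le_of_eq_of_le ?_ hx
      exact Equiv.sum_comp (Equiv.swap i j) fun k => (x k : ℝ) ^ 2
    refine Finset.sum_nbij' (fun x => x ∘ Equiv.swap i j) (fun x => x ∘ Equiv.swap i j)
      hmem hmem ?_ ?_ ?_
    · intro x _; funext k; simp
    · intro x _; funext k; simp
    · intro x _; simp
  have h1 : ∀ x : Fin n → ℤ, (∑ i, (x i : ℝ) * b i) ^ 2 =
      ∑ i, ∑ j, b i * b j * ((x i : ℝ) * (x j : ℝ)) := by
    intro x
    rw [pow_two, Finset.sum_mul_sum]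
    exact Finset.sum_congr rfl fun i _ => Finset.sum_congr rfl fun j _ => by ring
  simp only [h1]
  rw [Finset.sum_comm, Finset.mul_sum, Finset.sum_mul]
  refine Finset.sum_congr rfl fun i _ => ?_
  rw [Finset.sum_comm, Finset.sum_eq_single i]
  · rw [← Finset.mul_sum]
    have h2 : ∑ x ∈ latt n R, sq x = n * ∑ x ∈ latt n R, (x i : ℝ) ^ 2 := by
      simp only [sq]
      rw [Finset.sum_comm, Finset.sum_congr rfl fun k _ => hdiag k i, Finset.sum_const,
        Finset.card_univ, Fintype.card_fin, nsmul_eq_mul]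
    rw [h2]
    simp only [← pow_two]
    ring
  · intro j _ hji
    rw [← Finset.mul_sum, sum_offdiag hji.symm (hneg i)]
    ring
  · simp

/-- Squared radius factor for the set of values of `A x + β b + β δ`. -/
noncomputable def S (A β σ η : ℝ) : ℝ :=
  (1 + η) * ((1 + 2 * η) * (A ^ 2 + β ^ 2 * σ ^ 2) + 2 * |A * β| * η) + η * β ^ 2

lemma S_lower {A β σ η : ℝ} (hη : 0 ≤ η) (hβ : 1 ≤ β) : σ ^ 2 ≤ S A β σ η := by
  have h1 : σ ^ 2 ≤ β ^ 2 * σ ^ 2 := le_mul_of_one_le_left (sq_nonneg σ) (one_le_pow₀ hβ)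
  have h2 : β ^ 2 * σ ^ 2 ≤ (1 + 2 * η) * (A ^ 2 + β ^ 2 * σ ^ 2) + 2 * |A * β| * η := by
    have h3 : 0 ≤ 2 * η * (A ^ 2 + β ^ 2 * σ ^ 2) := by positivity
    have h4 : 0 ≤ 2 * |A * β| * η := by positivity
    nlinarith [sq_nonneg A]
  have h5 : 0 ≤ (1 + 2 * η) * (A ^ 2 + β ^ 2 * σ ^ 2) + 2 * |A * β| * η := by positivity
  have h6 : 0 ≤ η * β ^ 2 := by positivity
  unfold S
  nlinarith

/-- The image of a good pair lies in the ball of squared radius `ρ² S`. -/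
lemma good_pair_bound {A β σ η ρ : ℝ} (hη : 0 < η) (hη1 : η ≤ 1)
    (hn : (n : ℝ) ≤ η ^ 2 * ρ ^ 2) {x b y : Fin n → ℤ} (δ : Fin n → ℝ)
    (hx : sq x ≤ (1 + 2 * η) * ρ ^ 2) (hb : sq b ≤ (1 + 2 * η) * (σ ^ 2 * ρ ^ 2))
    (horth : |∑ i, (x i : ℝ) * (b i : ℝ)| ≤ η * ρ ^ 2) (hδ : ∀ i, |δ i| ≤ 1/2)
    (hy : ∀ i, (y i : ℝ) = A * (x i : ℝ) + β * (b i : ℝ) + β * δ i) :
    sq y ≤ ρ ^ 2 * S A β σ η := by
  have h := sum_sq_perturb hη hη1 hn (fun i => A * (x i : ℝ) + β * (b i : ℝ)) δ β hδ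
  have h1 : ∑ i, (A * (x i : ℝ) + β * (b i : ℝ)) ^ 2 =
      A ^ 2 * sq x + 2 * (A * β) * (∑ i, (x i : ℝ) * (b i : ℝ)) + β ^ 2 * sq b := by
    simp only [sq, Finset.mul_sum, ← Finset.sum_add_distrib]
    exact Finset.sum_congr rfl fun i _ => by ring
  have h2 : 2 * (A * β) * (∑ i, (x i : ℝ) * (b i : ℝ)) ≤ 2 * |A * β| * (η * ρ ^ 2) := by
    refine (le_abs_self _).trans ?_
    rw [abs_mul, abs_mul, abs_of_pos (by norm_num : (0:ℝ) < 2)]
    gcongr
  have h3 : sq y = ∑ i, (A * (x i : ℝ) + β * (b i : ℝ) + β * δ i) ^ 2 := by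
    simp only [sq, hy]
  rw [h3]
  refine h.trans ?_
  rw [h1]
  have h4 := mul_le_mul_of_nonneg_left hx (sq_nonneg A)
  have h5 := mul_le_mul_of_nonneg_left hb (sq_nonneg β)
  calc _ ≤ (1 + η) * ((1 + 2 * η) * (A ^ 2 + β ^ 2 * σ ^ 2) * ρ ^ 2
        + 2 * |A * β| * (η * ρ ^ 2)) + η * β ^ 2 * ρ ^ 2 :=
        add_le_add (mul_le_mul_of_nonneg_left (by linarith) (by linarith)) le_rfl
    _ = _ := by unfold S; ring

/-- Growth factor of the image count. -/
noncomputable def G (A β σ η : ℝ) : ℝ := √(S A β σ η) * √(1 + 2 * η)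

/-- Most `x` are nearly orthogonal to a quarter of `W`. -/
lemma many_good {α β : Type*} (X0 : Finset α) (W : Finset β) (good : α → β → Prop)
    [∀ a b, Decidable (good a b)] (hWpos : 0 < W.card)
    (hbad : ∀ b ∈ W, 2 * (X0.filter fun x => ¬ good x b).card ≤ X0.card) :
    X0.card ≤ 4 * (X0.filter fun x => W.card ≤ 4 * (W.filter (good x)).card).card := by
  have hpairs : X0.card * W.card ≤ ∑ x ∈ X0, (W.filter (good x)).card * 2 := by
    rw [← Finset.sum_mul]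
    simp only [Finset.card_filter]
    rw [Finset.sum_comm, Finset.sum_mul]
    calc X0.card * W.card = ∑ _b ∈ W, X0.card := by simp [mul_comm]
      _ ≤ _ := Finset.sum_le_sum fun b hb => by
        rw [← Finset.card_filter]
        have h1 := hbad b hb
        have h2 := Finset.card_filter_add_card_filter_not (s := X0) (fun x => good x b)
        omega
  have hsplit : ∑ x ∈ X0, (W.filter (good x)).card * 4 ≤
      ∑ x ∈ X0, (W.card + if W.card ≤ 4 * (W.filter (good x)).card then 3 * W.card else 0) := by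
    refine Finset.sum_le_sum fun x _ => ?_
    have := Finset.card_filter_le W (good x)
    split <;> omega
  rw [Finset.sum_add_distrib, Finset.sum_const, ← Finset.sum_filter, Finset.sum_const,
    smul_eq_mul, smul_eq_mul] at hsplit
  rw [← Finset.sum_mul] at hsplit hpairs
  nlinarith

/-- A fixed vector is nearly orthogonal to most lattice points of a ball. -/
lemma few_bad {R T : ℝ} (hR : 0 ≤ R) (hT : 0 < T) (b : Fin n → ℤ) (hb : sq b ≤ R ^ 2)
    (hn : 2 * R ^ 4 ≤ (n : ℝ) * T ^ 2) :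
    2 * ((latt n R).filter fun x => ¬ |∑ i, (x i : ℝ) * (b i : ℝ)| ≤ T).card ≤
      (latt n R).card := by
  have h1 : (((latt n R).filter fun x => ¬ |∑ i, (x i : ℝ) * (b i : ℝ)| ≤ T).card : ℝ) * T ^ 2 ≤
      ∑ x ∈ latt n R, (∑ i, (x i : ℝ) * (b i : ℝ)) ^ 2 := by
    rw [← nsmul_eq_mul, ← Finset.sum_const]
    refine (Finset.sum_le_sum fun x hx => ?_).trans
      (Finset.sum_le_sum_of_subset_of_nonneg (Finset.filter_subset _ _) fun x _ _ => sq_nonneg _)
    rw [Finset.mem_filter] at hx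
    rw [← sq_abs (∑ i, (x i : ℝ) * (b i : ℝ))]
    exact pow_le_pow_left₀ hT.le (le_of_not_ge hx.2) 2
  have h2 : (n : ℝ) * ∑ x ∈ latt n R, (∑ i, (x i : ℝ) * (b i : ℝ)) ^ 2 ≤
      R ^ 2 * (((latt n R).card : ℝ) * R ^ 2) := by
    rw [sum_inner_sq _ hR (fun i => (b i : ℝ))]
    refine mul_le_mul hb ?_ (Finset.sum_nonneg fun x _ => Finset.sum_nonneg fun i _ =>
      sq_nonneg _) (sq_nonneg R)
    rw [← nsmul_eq_mul, ← Finset.sum_const]
    exact Finset.sum_le_sum fun x hx => (mem_latt hR).mp hx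
  have h3 := (mul_le_mul_of_nonneg_left h1 (Nat.cast_nonneg n)).trans h2
  have h4 := mul_le_mul_of_nonneg_right hn
    (Nat.cast_nonneg (α := ℝ) ((latt n R).filter fun x =>
      ¬ |∑ i, (x i : ℝ) * (b i : ℝ)| ≤ T).card)
  rcases eq_or_lt_of_le hR with hR0 | hR0
  · have : ((latt n R).filter fun x => ¬ |∑ i, (x i : ℝ) * (b i : ℝ)| ≤ T) = ∅ := by
      refine Finset.filter_eq_empty_iff.mpr fun x hx => not_not.mpr ?_
      have h0 : ∀ i, (x i : ℝ) = 0 := fun i => by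
        have := abs_coord_le hR ((mem_latt hR).mp hx) i
        exact abs_nonpos_iff.mp (this.trans_eq hR0.symm)
      simp [h0, hT.le]
    rw [this]; simp
  have h5 : (0:ℝ) < R ^ 4 := by positivity
  have : (2:ℝ) * (((latt n R).filter fun x => ¬ |∑ i, (x i : ℝ) * (b i : ℝ)| ≤ T).card : ℝ) ≤
      ((latt n R).card : ℝ) := le_of_mul_le_mul_left (a := R ^ 4) (by linarith) h5
  exact_mod_cast this

/-- Rounding of `c • x`. -/
noncomputable def rnd (c : ℝ) (x : Fin n → ℤ) : Fin n → ℤ := fun i => ⌊c * (x i : ℝ) + 1/2⌋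

lemma abs_rnd_sub (c : ℝ) (x : Fin n → ℤ) (i : Fin n) :
    |(rnd c x i : ℝ) - c * (x i : ℝ)| ≤ 1/2 := by
  simp only [rnd, abs_le]
  constructor <;> linarith [Int.floor_le (c * (x i : ℝ) + 1/2),
    Int.lt_floor_add_one (c * (x i : ℝ) + 1/2)]

/-- The three images of a good pair. -/
lemma images_mem {c σ η ρ : ℝ} (hρ : 0 ≤ ρ) (hη : 0 < η) (hη1 : η ≤ 1)
    (hn : (n : ℝ) ≤ η ^ 2 * ρ ^ 2) {x b : Fin n → ℤ}
    (hx : sq x ≤ (1 + 2 * η) * ρ ^ 2) (hb : sq b ≤ (1 + 2 * η) * (σ ^ 2 * ρ ^ 2))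
    (horth : |∑ i, (x i : ℝ) * (b i : ℝ)| ≤ η * ρ ^ 2) :
    x - (x - 2 • (rnd c x + b)) ∈ (latt n (ρ * √(S c 1 σ η))).image (fun z => 2 • z) ∧
    x - 2 • (x - 2 • (rnd c x + b)) ∈ latt n (ρ * √(S (4 * c - 1) 4 σ η)) ∧
    x - 3 • (x - 2 • (rnd c x + b)) ∈
      (latt n (ρ * √(S (3 * c - 1) 3 σ η))).image (fun z => 2 • z) := by
  set δ : Fin n → ℝ := fun i => (rnd c x i : ℝ) - c * (x i : ℝ) with hδdef
  have key : ∀ A β : ℝ, 1 ≤ β → ∀ y : Fin n → ℤ,
      (∀ i, (y i : ℝ) = A * (x i : ℝ) + β * (b i : ℝ) + β * δ i) →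
      y ∈ latt n (ρ * √(S A β σ η)) := by
    intro A β hβ y hy
    rw [mem_latt (by positivity), mul_pow,
      Real.sq_sqrt ((sq_nonneg σ).trans (S_lower hη.le hβ))]
    exact good_pair_bound hη hη1 hn δ hx hb horth (abs_rnd_sub c x) hy
  refine ⟨Finset.mem_image.mpr ⟨rnd c x + b, key c 1 le_rfl _ fun i => ?_, ?_⟩,
    key (4 * c - 1) 4 (by norm_num) _ fun i => ?_,
    Finset.mem_image.mpr ⟨3 • (rnd c x + b) - x, key (3 * c - 1) 3 (by norm_num) _ fun i => ?_, ?_⟩⟩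
  · simp [hδdef]; ring
  · abel
  · simp [hδdef]; ring
  · simp [hδdef]; ring
  · abel

/-- Coordinate bound for the second variable. -/
lemma coord_bound {c M : ℝ} (hM : 1 ≤ M) (x b : Fin n → ℤ) (i : Fin n)
    (hx : |(x i : ℝ)| ≤ M) (hb : |(b i : ℝ)| ≤ M) :
    |(((x - 2 • (rnd c x + b)) i : ℤ) : ℝ)| ≤ (4 + 2 * |c|) * M := by
  have h := abs_le.mp (abs_rnd_sub c x i)
  have hcx : |c * (x i : ℝ)| ≤ |c| * M := by rw [abs_mul]; gcongr
  rw [abs_le] at hcx hx hb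
  have e : (((x - 2 • (rnd c x + b)) i : ℤ) : ℝ) =
      (x i : ℝ) - 2 * ((rnd c x i : ℝ) + (b i : ℝ)) := by simp; ring
  rw [e, abs_le]
  constructor <;> linarith [hcx.1, hcx.2]

lemma three_pow_le {ρ : ℝ} (hρ0 : 0 ≤ ρ) (h : (n : ℝ) ≤ ρ ^ 2) :
    3 ^ n ≤ (latt n ρ).card := by
  have : (Fintype.piFinset fun _ : Fin n => Finset.Icc (-1:ℤ) 1) ⊆ latt n ρ := by
    intro z hz
    rw [Fintype.mem_piFinset] at hz
    rw [mem_latt hρ0]
    refine le_trans ?_ h
    calc sq z ≤ ∑ _i : Fin n, (1:ℝ) := Finset.sum_le_sum fun i _ => by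
          obtain ⟨h1, h2⟩ := Finset.mem_Icc.mp (hz i)
          have h1' : (-1:ℝ) ≤ (z i : ℝ) := by exact_mod_cast h1
          have h2' : (z i : ℝ) ≤ 1 := by exact_mod_cast h2
          nlinarith
      _ = n := by simp
  simpa using Finset.card_le_card this

lemma latt_mono {a b : ℝ} (ha : 0 ≤ a) (hab : a ≤ b) : latt n a ⊆ latt n b := fun z hz => by
  rw [mem_latt ha] at hz
  rw [mem_latt (ha.trans hab)]
  exact hz.trans (pow_le_pow_left₀ ha hab 2)

/-- The configuration in a fixed dimension. -/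
theorem config_at {c σ η : ℝ} (hσ0 : 0 < σ) (hσ1 : σ ≤ 1) (hη : 0 < η) (hη1 : η ≤ 1)
    (hn1 : 1 ≤ n) (h18 : 18 ≤ (n : ℝ) * η ^ 2)
    (hDn : ((8 + 4 * |c|) / (η * σ) + 1) * (n : ℝ) / (3:ℝ) ^ n ≤ 1/8) :
    ∃ (X : Finset (Fin n → ℤ)) (F : (Fin n → ℤ) → Finset (Fin n → ℤ))
      (E1 E2 E3 : Finset (Fin n → ℤ)) (m D : ℕ) (U : ℝ),
      (0 < m ∧ m ≤ X.card ∧ 2 * D ≤ X.card ∧ (∀ x ∈ X, ∀ i, |x i| ≤ (D : ℤ)) ∧
      (∀ x ∈ X, ∀ t ∈ F x, ∀ i, |t i| ≤ (D : ℤ)) ∧
      (∀ x ∈ X, m ≤ (F x).card) ∧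
      (∀ x ∈ X, ∀ t ∈ F x, x - t ∈ E1 ∧ x - 2 • t ∈ E2 ∧ x - 3 • t ∈ E3)) ∧
      0 < U ∧ U / 4 ≤ (X.card : ℝ) ∧ σ ^ n * U / 4 ≤ (m : ℝ) ∧
      (X.card : ℝ) ≤ (1 + 2 * η) ^ n * U ∧
      (E1.card : ℝ) ≤ G c 1 σ η ^ n * U ∧ (E2.card : ℝ) ≤ G (4 * c - 1) 4 σ η ^ n * U ∧
      (E3.card : ℝ) ≤ G (3 * c - 1) 3 σ η ^ n * U := by
  classical
  set ρ : ℝ := √(n : ℝ) / (η * σ) with hρ
  have hρ0 : 0 < ρ := by
    have : (0:ℝ) < n := by exact_mod_cast hn1
    positivity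
  have hρn : η ^ 2 * (σ * ρ) ^ 2 = n := by
    rw [hρ]; field_simp
    rw [Real.sq_sqrt (Nat.cast_nonneg n)]
  have hρn' : (n : ℝ) ≤ η ^ 2 * ρ ^ 2 := by
    rw [← hρn]; gcongr; exact mul_le_of_le_one_left hρ0.le hσ1
  set κ := √(1 + 2 * η) with hκ
  have hκ0 : 0 < κ := by positivity
  have hκ1 : 1 ≤ κ := Real.one_le_sqrt.mpr (by linarith)
  have hκ2 : κ ^ 2 = 1 + 2 * η := Real.sq_sqrt (by positivity)
  have hκle : κ ≤ 2 := by rw [hκ, Real.sqrt_le_left (by norm_num)]; linarith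
  set good : (Fin n → ℤ) → (Fin n → ℤ) → Prop :=
    fun x b => |∑ i, (x i : ℝ) * (b i : ℝ)| ≤ η * ρ ^ 2 with hgood
  set X0 := latt n (ρ * κ) with hX0
  set W := latt n (σ * ρ * κ) with hW
  have hWsub : W ⊆ X0 := latt_mono (by positivity)
    (mul_le_mul_of_nonneg_right (mul_le_of_le_one_left hρ0.le hσ1) hκ0.le)
  have hWpos : 0 < W.card := Finset.card_pos.mpr ⟨0, zero_mem_latt (by positivity)⟩
  have hbad : ∀ b ∈ W, 2 * (X0.filter fun x => ¬ good x b).card ≤ X0.card := fun b hb =>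
    few_bad (R := ρ * κ) (by positivity) (by positivity) b
      ((mem_latt (by positivity)).mp (hWsub hb)) (by
        calc 2 * (ρ * κ) ^ 4 = 2 * (κ ^ 2) ^ 2 * (ρ ^ 2) ^ 2 := by ring
          _ ≤ 2 * (3:ℝ) ^ 2 * (ρ ^ 2) ^ 2 := by
            gcongr; rw [hκ2]; linarith
          _ ≤ (n : ℝ) * η ^ 2 * (ρ ^ 2) ^ 2 := by
            exact mul_le_mul_of_nonneg_right (by linarith) (by positivity)
          _ = _ := by ring)
  have hX4 := many_good X0 W good hWpos hbad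
  set X := X0.filter fun x => W.card ≤ 4 * (W.filter (good x)).card with hX
  have hXX0 : X.card ≤ X0.card := Finset.card_filter_le _ _
  have hWX0 : W.card ≤ X0.card := Finset.card_le_card hWsub
  set M : ℝ := 2 * ((n : ℝ) / (η * σ)) with hM
  have hρM : ρ * κ ≤ M := by
    calc ρ * κ ≤ ((n : ℝ) / (η * σ)) * 2 := by
          rw [hρ]; gcongr
          rw [Real.sqrt_le_left (by positivity)]
          have : (1:ℝ) ≤ n := by exact_mod_cast hn1
          nlinarith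
      _ = _ := by ring
  have hM1 : 1 ≤ M := by
    have h1 : (1:ℝ) ≤ n := by exact_mod_cast hn1
    have h2 : η * σ ≤ 1 := mul_le_one₀ hη1 hσ0.le hσ1
    have : (1:ℝ) ≤ (n : ℝ) / (η * σ) := by
      rw [le_div_iff₀ (by positivity)]; linarith
    linarith
  set D := ⌈(8 + 4 * |c|) / (η * σ) * n⌉₊ with hD
  have hCM : (4 + 2 * |c|) * M = (8 + 4 * |c|) / (η * σ) * n := by rw [hM]; ring
  have hxM : ∀ x ∈ X0, ∀ i, |(x i : ℝ)| ≤ M := fun x hx i =>
    (abs_coord_le (by positivity) ((mem_latt (by positivity)).mp hx) i).trans hρM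
  refine ⟨X, fun x => (W.filter (good x)).image fun b => x - 2 • (rnd c x + b),
    (latt n (ρ * √(S c 1 σ η))).image (fun z => 2 • z),
    latt n (ρ * √(S (4 * c - 1) 4 σ η)),
    (latt n (ρ * √(S (3 * c - 1) 3 σ η))).image (fun z => 2 • z), (W.card + 3) / 4, D,
    ρ ^ n * V n, ⟨by omega, by omega, ?_, ?_, ?_, ?_, ?_⟩, ?_, ?_, ?_, ?_, ?_, ?_, ?_⟩
  · have h3n : 3 ^ n ≤ X0.card := three_pow_le (by positivity) (by
      calc (n : ℝ) ≤ η ^ 2 * ρ ^ 2 := hρn'
        _ ≤ 1 * ρ ^ 2 := by gcongr; exact pow_le_one₀ hη.le hη1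
        _ ≤ _ := by rw [one_mul, mul_pow]; exact le_mul_of_one_le_right (sq_nonneg ρ) (one_le_pow₀ hκ1))
    have h1 : (3:ℝ) ^ n ≤ 4 * (X.card : ℝ) := by exact_mod_cast h3n.trans hX4
    have h2 : (D : ℝ) < (8 + 4 * |c|) / (η * σ) * n + 1 := Nat.ceil_lt_add_one (by positivity)
    rw [div_le_iff₀ (by positivity)] at hDn
    have h3 : (1:ℝ) ≤ n := by exact_mod_cast hn1
    have : (2:ℝ) * D ≤ X.card := by linarith
    exact_mod_cast this
  · intro x hx i
    have h : ((|x i| : ℤ) : ℝ) ≤ (D : ℝ) := by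
      push_cast
      refine (hxM x (Finset.mem_of_mem_filter x hx) i).trans (le_trans ?_ (Nat.le_ceil _))
      rw [← hCM]
      exact le_mul_of_one_le_left (by linarith) (by linarith [abs_nonneg c])
    exact_mod_cast h
  · intro x hx t ht i
    simp only [Finset.mem_image, Finset.mem_filter] at ht
    obtain ⟨b, ⟨hb, -⟩, rfl⟩ := ht
    have h : ((|(x - 2 • (rnd c x + b)) i| : ℤ) : ℝ) ≤ (D : ℝ) := by
      rw [Int.cast_abs]
      refine (coord_bound hM1 x b i (hxM x (Finset.mem_of_mem_filter x hx) i)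
        (hxM b (hWsub hb) i)).trans ?_
      rw [hCM]
      exact Nat.le_ceil _
    exact_mod_cast h
  · intro x hx
    dsimp only
    rw [Finset.card_image_of_injective _ (fun b b' hbb => by
      funext i
      have := congrFun hbb i
      simp at this
      linarith)]
    have := (Finset.mem_filter.mp hx).2
    omega
  · intro x hx t ht
    simp only [Finset.mem_image, Finset.mem_filter] at ht
    obtain ⟨b, ⟨hb, hgb⟩, rfl⟩ := ht
    have hx0 := (mem_latt (by positivity)).mp (Finset.mem_of_mem_filter x hx)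
    have hb0 := (mem_latt (by positivity)).mp hb
    exact images_mem hρ0.le hη hη1 hρn' (hx0.trans_eq (by rw [mul_pow, hκ2]; ring))
      (hb0.trans_eq (by rw [mul_pow, hκ2]; ring)) hgb
  · have := V_pos (n := n); positivity
  · have h1 : ρ ^ n * V n ≤ (X0.card : ℝ) := le_card_latt hη hη1 hρ0 hρn'
    have : (X0.card : ℝ) ≤ 4 * (X.card : ℝ) := by exact_mod_cast hX4
    linarith
  · have h1 : (σ * ρ) ^ n * V n ≤ (W.card : ℝ) := le_card_latt hη hη1 (by positivity) hρn.ge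
    have h2 : (W.card : ℝ) ≤ 4 * (((W.card + 3) / 4 : ℕ) : ℝ) := by
      have : W.card ≤ 4 * ((W.card + 3) / 4) := by omega
      exact_mod_cast this
    rw [mul_pow] at h1
    linarith
  · have h := card_latt_le (n := n) hη hη1 (b := ρ * κ) (by positivity) (by
      refine hρn'.trans ?_
      gcongr; exact le_mul_of_one_le_right hρ0.le hκ1)
    have hc : (X.card : ℝ) ≤ (X0.card : ℝ) := by exact_mod_cast hXX0
    refine hc.trans (h.trans_eq ?_)
    rw [← hκ, ← hκ2, ← mul_assoc, ← mul_pow]; ring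
  all_goals
    have hEup : ∀ A β : ℝ, 1 ≤ β →
        ((latt n (ρ * √(S A β σ η))).card : ℝ) ≤ G A β σ η ^ n * (ρ ^ n * V n) := by
      intro A β hβ
      have hS := S_lower (A := A) (σ := σ) hη.le hβ
      have hS0 : 0 < S A β σ η := lt_of_lt_of_le (by positivity) hS
      have h := card_latt_le (n := n) hη hη1 (b := ρ * √(S A β σ η)) (by positivity) (by
        rw [mul_pow, Real.sq_sqrt hS0.le]
        calc (n : ℝ) = η ^ 2 * (ρ ^ 2 * σ ^ 2) := by rw [← hρn]; ring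
          _ ≤ _ := by gcongr)
      refine h.trans_eq ?_
      rw [← mul_assoc, ← mul_pow]
      unfold G
      ring
  · exact le_trans (by exact_mod_cast Finset.card_image_le) (hEup c 1 le_rfl)
  · exact hEup _ _ (by norm_num)
  · exact le_trans (by exact_mod_cast Finset.card_image_le) (hEup _ _ (by norm_num))

/-- The configuration in high dimension. -/
theorem exists_lattice_config {c σ : ℝ} (hσ0 : 0 < σ) (hσ1 : σ ≤ 1) {w1 w2 w3 : ℝ}
    (hw1 : 0 ≤ w1) (hw2 : 0 ≤ w2) (hw3 : 0 ≤ w3)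
    (hlt : √(c ^ 2 + σ ^ 2) ^ w1 * √((4 * c - 1) ^ 2 + 16 * σ ^ 2) ^ w2 *
      √((3 * c - 1) ^ 2 + 9 * σ ^ 2) ^ w3 < σ) (K : ℝ) (hK : 0 ≤ K) :
    ∃ (n : ℕ) (X : Finset (Fin n → ℤ)) (F : (Fin n → ℤ) → Finset (Fin n → ℤ))
      (E1 E2 E3 : Finset (Fin n → ℤ)) (m D : ℕ),
      (0 < m ∧ m ≤ X.card ∧ 2 * D ≤ X.card ∧ (∀ x ∈ X, ∀ i, |x i| ≤ (D : ℤ)) ∧
      (∀ x ∈ X, ∀ t ∈ F x, ∀ i, |t i| ≤ (D : ℤ)) ∧
      (∀ x ∈ X, m ≤ (F x).card) ∧
      (∀ x ∈ X, ∀ t ∈ F x, x - t ∈ E1 ∧ x - 2 • t ∈ E2 ∧ x - 3 • t ∈ E3)) ∧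
      K * ((E1.card : ℝ) ^ w1 * (E2.card : ℝ) ^ w2 * (E3.card : ℝ) ^ w3) <
        (X.card : ℝ) ^ (w1 + w2 + w3) * ((m : ℝ) / (X.card : ℝ)) := by
  set P : ℝ → ℝ := fun η => (1 + 2 * η) *
    (G c 1 σ η ^ w1 * G (4 * c - 1) 4 σ η ^ w2 * G (3 * c - 1) 3 σ η ^ w3) with hP
  have hP0 : P 0 < σ := by
    simpa [hP, G, S, show (4:ℝ) ^ 2 = 16 by norm_num, show (3:ℝ) ^ 2 = 9 by norm_num] using hlt
  have hcont : ContinuousAt P 0 := by
    have hG : ∀ A β : ℝ, ContinuousAt (G A β σ) 0 := fun A β => by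
      unfold G S; fun_prop
    exact ContinuousAt.mul (by fun_prop) (((hG _ _).rpow_const (Or.inr hw1)).mul
      ((hG _ _).rpow_const (Or.inr hw2)) |>.mul ((hG _ _).rpow_const (Or.inr hw3)))
  have hev : ∀ᶠ η in 𝓝[>] (0:ℝ), P η < σ ∧ η ≤ 1 ∧ 0 < η :=
    ((eventually_nhdsWithin_of_eventually_nhds (hcont.eventually_lt continuousAt_const hP0)).and
      ((eventually_nhdsWithin_of_eventually_nhds (eventually_le_nhds zero_lt_one)).and
        self_mem_nhdsWithin))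
  obtain ⟨η, hPη, hη1, hη⟩ := hev.exists
  have hGpos : ∀ A β : ℝ, 1 ≤ β → 0 < G A β σ η := fun A β hβ => by
    have : 0 < S A β σ η := lt_of_lt_of_le (by positivity) (S_lower hη.le hβ)
    unfold G; positivity
  have g1 : 0 < G c 1 σ η := hGpos _ _ le_rfl
  have g2 : 0 < G (4 * c - 1) 4 σ η := hGpos _ _ (by norm_num)
  have g3 : 0 < G (3 * c - 1) 3 σ η := hGpos _ _ (by norm_num)
  set Q := G c 1 σ η ^ w1 * G (4 * c - 1) 4 σ η ^ w2 * G (3 * c - 1) 3 σ η ^ w3 with hQ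
  have hQ0 : 0 < Q := by positivity
  have hq : 1 < σ / ((1 + 2 * η) * Q) := (one_lt_div (by positivity)).mpr hPη
  set s := w1 + w2 + w3 with hs
  have hs0 : 0 ≤ s := by positivity
  have hev2 : ∀ᶠ n : ℕ in atTop, K * (4:ℝ) ^ s * 4 < (σ / ((1 + 2 * η) * Q)) ^ n ∧
      18 ≤ (n : ℝ) * η ^ 2 ∧
      ((8 + 4 * |c|) / (η * σ) + 1) * (n : ℝ) / (3:ℝ) ^ n ≤ 1/8 ∧ 1 ≤ n := by
    refine ((tendsto_pow_atTop_atTop_of_one_lt hq).eventually_gt_atTop _).and
      (((tendsto_natCast_atTop_atTop.atTop_mul_const (by positivity)).eventually_ge_atTop 18).and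
        ((?_ : ∀ᶠ n : ℕ in atTop, _).and (eventually_ge_atTop 1)))
    have h := (tendsto_pow_const_div_const_pow_of_one_lt 1 (by norm_num : (1:ℝ) < 3)).const_mul
      ((8 + 4 * |c|) / (η * σ) + 1)
    simp only [pow_one, mul_zero] at h
    filter_upwards [h.eventually_le_const (by norm_num : (0:ℝ) < 1/8)] with n hn
    rw [mul_div_assoc]; exact hn
  obtain ⟨n, hKn, h18, hDn, hn1⟩ := hev2.exists
  obtain ⟨X, F, E1, E2, E3, m, D, U, hcfg, hU0, hx4, hm4, hxu, e1, e2, e3⟩ :=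
    config_at (n := n) (c := c) hσ0 hσ1 hη hη1 hn1 h18 hDn
  refine ⟨n, X, F, E1, E2, E3, m, D, hcfg, ?_⟩
  have hxpos : (0:ℝ) < X.card := by linarith
  have hsplit : ∀ Gi wi : ℝ, 0 < Gi → (Gi ^ n * U) ^ wi = (Gi ^ wi) ^ n * U ^ wi := by
    intro Gi wi hGi
    rw [Real.mul_rpow (by positivity) hU0.le, ← Real.rpow_natCast, ← Real.rpow_mul hGi.le,
      mul_comm (n : ℝ) wi, Real.rpow_mul hGi.le, Real.rpow_natCast]
  calc K * ((E1.card : ℝ) ^ w1 * (E2.card : ℝ) ^ w2 * (E3.card : ℝ) ^ w3)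
      ≤ K * ((G c 1 σ η ^ n * U) ^ w1 * (G (4 * c - 1) 4 σ η ^ n * U) ^ w2 *
          (G (3 * c - 1) 3 σ η ^ n * U) ^ w3) := by
        gcongr
    _ = K * Q ^ n * U ^ s := by
        rw [hsplit _ _ g1, hsplit _ _ g2, hsplit _ _ g3, hs, Real.rpow_add hU0,
          Real.rpow_add hU0, hQ, mul_pow, mul_pow]
        ring
    _ < ((4:ℝ) ^ s)⁻¹ * 4⁻¹ * (σ / (1 + 2 * η)) ^ n * U ^ s := by
        have h4 : (0:ℝ) < 4 ^ s * 4 := by positivity
        refine mul_lt_mul_of_pos_right ?_ (by positivity)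
        rw [← mul_inv, inv_mul_eq_div, lt_div_iff₀ h4]
        rw [← div_div, div_pow, lt_div_iff₀ (pow_pos hQ0 n)] at hKn
        linarith
    _ = (U / 4) ^ s * ((σ ^ n * U / 4) / ((1 + 2 * η) ^ n * U)) := by
        rw [Real.div_rpow hU0.le (by norm_num), div_pow]
        field_simp
    _ ≤ _ := by gcongr

end Vale.Agent.P141
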