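import Vale.Agent.P141.Analysis
import Vale.Agent.P141.Compress
import Vale.Agent.P141.Lattice

/-! P141: the trilinear Hilbert transform is unbounded in a range below one half. -/

open MeasureTheory Filter Topology
open scoped ENNReal NNReal SchwartzMap

namespace Vale.Agent.P141

lemma toReal_inv_sum {p1 p2 p3 : ℝ≥0∞} {r : ℝ} (h1 : 1 < p1) (h2 : 1 < p2) (h3 : 1 < p3)
    (hr : 0 < r) (hp : p1⁻¹ + p2⁻¹ + p3⁻¹ = (ENNReal.ofReal r)⁻¹) :
    (p1⁻¹).toReal + (p2⁻¹).toReal + (p3⁻¹).toReal = 1 / r := by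
  have t : ∀ p : ℝ≥0∞, 1 < p → p⁻¹ ≠ ⊤ := fun p hp =>
    ENNReal.inv_ne_top.mpr (zero_lt_one.trans hp).ne'
  have h := congrArg ENNReal.toReal hp
  rw [ENNReal.toReal_add (ENNReal.add_ne_top.mpr ⟨t _ h1, t _ h2⟩) (t _ h3),
    ENNReal.toReal_add (t _ h1) (t _ h2), ENNReal.toReal_inv (ENNReal.ofReal r),
    ENNReal.toReal_ofReal hr.le] at h
  rw [h, one_div]

/-- Unboundedness whenever the Gaussian exponent inequality holds. -/
theorem unbounded_of_gaussian {c σ : ℝ} (hσ0 : 0 < σ) (hσ1 : σ ≤ 1)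
    (p1 p2 p3 : ℝ≥0∞) (r : ℝ) (h1 : 1 < p1) (h2 : 1 < p2) (h3 : 1 < p3) (hr : 0 < r)
    (hp : p1⁻¹ + p2⁻¹ + p3⁻¹ = (ENNReal.ofReal r)⁻¹)
    (hlt : √(c ^ 2 + σ ^ 2) ^ (p1⁻¹).toReal *
      √((4 * c - 1) ^ 2 + 16 * σ ^ 2) ^ (p2⁻¹).toReal *
      √((3 * c - 1) ^ 2 + 9 * σ ^ 2) ^ (p3⁻¹).toReal < σ) (C : ℝ≥0) :
    ∃ f1 f2 f3 : 𝓢(ℝ, ℂ), ∃ g : ℝ → ℂ,
      (∀ x : ℝ, Tendsto (fun q : ℝ × ℝ => ∫ t in {t : ℝ | q.1 < |t| ∧ |t| < q.2},
          f1 (x - t) * f2 (x - 2 * t) * f3 (x - 3 * t) / (t : ℂ))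
        ((𝓝[>] (0 : ℝ)) ×ˢ atTop) (𝓝 (g x))) ∧
      (C : ℝ≥0∞) * eLpNorm f1 p1 volume * eLpNorm f2 p2 volume * eLpNorm f3 p3 volume <
        eLpNorm g (ENNReal.ofReal r) volume := by
  set w1 := (p1⁻¹).toReal with hw1d
  set w2 := (p2⁻¹).toReal with hw2d
  set w3 := (p3⁻¹).toReal with hw3d
  have hsum : w1 + w2 + w3 = 1 / r := toReal_inv_sum h1 h2 h3 hr hp
  have hw1 : 0 ≤ w1 := ENNReal.toReal_nonneg
  have hw2 : 0 ≤ w2 := ENNReal.toReal_nonneg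
  have hw3 : 0 ≤ w3 := ENNReal.toReal_nonneg
  set s := 1 / r with hs
  have hs0 : 0 ≤ s := by rw [hs]; positivity
  obtain ⟨n, X, F, E1, E2, E3, m, D, ⟨hm0, hmX, hD, hXD, hFD, hF, hE⟩, hK⟩ :=
    exists_lattice_config hσ0 hσ1 hw1 hw2 hw3 hlt
      ((C : ℝ) * (4:ℝ) ^ s * (128:ℝ) ^ s * 960) (by positivity)
  obtain ⟨B, X', F', E1', E2', E3', hB, hsep, hE', hF', hX', c1, c2, c3⟩ :=
    compress hm0 hmX hD hXD hFD hF hE
  obtain ⟨f1, f2, f3, g, hg, b1, b2, b3, hlow⟩ :=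
    exists_test_functions hsep hE' (by positivity : (0:ℝ) ≤ (m : ℝ) / 8) hF' p1 p2 p3 hr
  refine ⟨f1, f2, f3, g, hg, ?_⟩
  have hxpos : (0:ℝ) < X.card := by exact_mod_cast lt_of_lt_of_le hm0 hmX
  have hconv : ∀ (E' : Finset ℤ) (w : ℝ), 0 ≤ w →
      (E'.card : ℝ≥0∞) ^ w = ENNReal.ofReal ((E'.card : ℝ) ^ w) := fun E' w hw => by
    rw [← ENNReal.ofReal_natCast, ENNReal.ofReal_rpow_of_nonneg (Nat.cast_nonneg _) hw]
  have d1 : (E1'.card : ℝ) ≤ 4 * (E1.card : ℝ) := by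
    have : E1'.card ≤ 4 * E1.card := by omega
    exact_mod_cast this
  have d2 : (E2'.card : ℝ) ≤ 4 * (E2.card : ℝ) := by
    have : E2'.card ≤ 4 * E2.card := by omega
    exact_mod_cast this
  have d3 : (E3'.card : ℝ) ≤ 4 * (E3.card : ℝ) := by exact_mod_cast c3
  calc (C : ℝ≥0∞) * eLpNorm f1 p1 volume * eLpNorm f2 p2 volume * eLpNorm f3 p3 volume
      ≤ ENNReal.ofReal (C : ℝ) * ENNReal.ofReal ((E1'.card : ℝ) ^ w1) *
          ENNReal.ofReal ((E2'.card : ℝ) ^ w2) * ENNReal.ofReal ((E3'.card : ℝ) ^ w3) := by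
        rw [ENNReal.ofReal_coe_nnreal, ← hconv _ _ hw1, ← hconv _ _ hw2, ← hconv _ _ hw3]
        gcongr
    _ = ENNReal.ofReal ((C : ℝ) * (E1'.card : ℝ) ^ w1 * (E2'.card : ℝ) ^ w2 *
          (E3'.card : ℝ) ^ w3) := by
        rw [ENNReal.ofReal_mul (by positivity), ENNReal.ofReal_mul (by positivity),
          ENNReal.ofReal_mul (by positivity)]
    _ < ENNReal.ofReal ((m : ℝ) / 8 * (1/8) / ((B : ℝ) + 1) * ((X'.card : ℝ) / 8) ^ (1/r)) := by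
        have hrhs : (X.card : ℝ) ^ s * ((m : ℝ) / (X.card : ℝ)) / ((128:ℝ) ^ s * 960) ≤
            (m : ℝ) / 8 * (1/8) / ((B : ℝ) + 1) * ((X'.card : ℝ) / 8) ^ (1/r) := by
          have hB' : (B : ℝ) + 1 ≤ 15 * (X.card : ℝ) := by
            have : B + 1 ≤ 15 * X.card := by omega
            exact_mod_cast this
          calc _ = (m : ℝ) / 8 * (1/8) / (15 * (X.card : ℝ)) * ((X.card : ℝ) / 128) ^ s := by
                rw [Real.div_rpow hxpos.le (by norm_num)]; field_simp; ring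
            _ ≤ _ := by
                refine mul_le_mul ?_ (Real.rpow_le_rpow (by positivity) (by linarith) hs0)
                  (by positivity) (by positivity)
                gcongr
        have hlhs : (C : ℝ) * (E1'.card : ℝ) ^ w1 * (E2'.card : ℝ) ^ w2 * (E3'.card : ℝ) ^ w3 ≤
            (C : ℝ) * (4:ℝ) ^ s *
              ((E1.card : ℝ) ^ w1 * (E2.card : ℝ) ^ w2 * (E3.card : ℝ) ^ w3) := by
          calc _ ≤ (C : ℝ) * (4 * (E1.card : ℝ)) ^ w1 * (4 * (E2.card : ℝ)) ^ w2 *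
                (4 * (E3.card : ℝ)) ^ w3 := by gcongr
            _ = _ := by
                rw [Real.mul_rpow (by norm_num) (Nat.cast_nonneg _),
                  Real.mul_rpow (by norm_num) (Nat.cast_nonneg _),
                  Real.mul_rpow (by norm_num) (Nat.cast_nonneg _), ← hsum,
                  Real.rpow_add (by norm_num), Real.rpow_add (by norm_num)]
                ring
        have hmid : (C : ℝ) * (4:ℝ) ^ s *
            ((E1.card : ℝ) ^ w1 * (E2.card : ℝ) ^ w2 * (E3.card : ℝ) ^ w3) <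
            (X.card : ℝ) ^ s * ((m : ℝ) / (X.card : ℝ)) / ((128:ℝ) ^ s * 960) := by
          rw [lt_div_iff₀ (by positivity), ← hsum]
          rw [← hsum] at hK
          linarith
        refine (ENNReal.ofReal_lt_ofReal_iff ?_).mpr (hlhs.trans_lt (hmid.trans_le hrhs))
        exact lt_of_lt_of_le (div_pos (mul_pos (Real.rpow_pos_of_pos hxpos _)
          (div_pos (by exact_mod_cast hm0) hxpos)) (by positivity)) hrhs
    _ ≤ _ := hlow

/-- The numerical range at the symmetric Gaussian. -/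
lemma range_ineq {w1 w2 w3 r : ℝ} (hr : 0 < r) (hsum : w1 + w2 + w3 = 1 / r)
    (hlt : r < Real.log 13 / Real.log (676 / 3)) :
    √((7/26:ℝ) ^ 2 + (√3 / 26) ^ 2) ^ w1 *
      √((4 * (7/26:ℝ) - 1) ^ 2 + 16 * (√3 / 26) ^ 2) ^ w2 *
      √((3 * (7/26:ℝ) - 1) ^ 2 + 9 * (√3 / 26) ^ 2) ^ w3 < √3 / 26 := by
  have h3 : (√3 / 26 : ℝ) ^ 2 = 3 / 676 := by
    rw [div_pow, Real.sq_sqrt (by norm_num)]; norm_num
  have e1 : (7/26:ℝ) ^ 2 + (√3 / 26) ^ 2 = (13:ℝ)⁻¹ := by rw [h3]; norm_num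
  have e2 : (4 * (7/26:ℝ) - 1) ^ 2 + 16 * (√3 / 26) ^ 2 = (13:ℝ)⁻¹ := by rw [h3]; norm_num
  have e3 : (3 * (7/26:ℝ) - 1) ^ 2 + 9 * (√3 / 26) ^ 2 = (13:ℝ)⁻¹ := by rw [h3]; norm_num
  rw [e1, e2, e3, ← Real.rpow_add (by positivity), ← Real.rpow_add (by positivity), hsum]
  refine (Real.log_lt_log_iff (by positivity) (by positivity)).mp ?_
  rw [Real.log_rpow (by positivity), Real.log_sqrt (by norm_num), Real.log_inv,
    Real.log_div (by positivity) (by norm_num), Real.log_sqrt (by norm_num)]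
  have h676 : Real.log (676 / 3) = 2 * Real.log 26 - Real.log 3 := by
    rw [Real.log_div (by norm_num) (by norm_num), show (676:ℝ) = 26 ^ 2 by norm_num, Real.log_pow]
    push_cast; ring
  have hpos : 0 < Real.log (676 / 3) := Real.log_pos (by norm_num)
  rw [lt_div_iff₀ hpos, h676] at hlt
  rw [div_mul_eq_mul_div, one_mul, div_lt_iff₀ hr]
  linarith

/-- The inequality at an asymmetric tuple close to `(1, 1, ⊤)`. -/
lemma near_half_ineq {e : ℝ} (he : 0 < e) :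
    √((1/8:ℝ) ^ 2 + (1/8) ^ 2) ^ (1 - e/8) *
      √((4 * (1/8:ℝ) - 1) ^ 2 + 16 * (1/8) ^ 2) ^ (1 - e/8) *
      √((3 * (1/8:ℝ) - 1) ^ 2 + 9 * (1/8) ^ 2) ^ e < 1/8 := by
  norm_num only
  refine (Real.log_lt_log_iff (by positivity) (by norm_num)).mp ?_
  rw [Real.log_mul (by positivity) (by positivity), Real.log_mul (by positivity) (by positivity),
    Real.log_rpow (by positivity), Real.log_rpow (by positivity), Real.log_rpow (by positivity),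
    Real.log_sqrt (by norm_num), Real.log_sqrt (by norm_num), Real.log_sqrt (by norm_num),
    Real.log_div (by norm_num) (by norm_num), Real.log_div (by norm_num) (by norm_num),
    Real.log_div (by norm_num) (by norm_num), Real.log_div (by norm_num) (by norm_num),
    show (32:ℝ) = 2 ^ 5 by norm_num, show (8:ℝ) = 2 ^ 3 by norm_num, Real.log_pow, Real.log_pow,
    Real.log_one]
  have h : Real.log ((2:ℝ) ^ 6) < Real.log (((32:ℝ) / 17) ^ 8) :=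
    Real.log_lt_log (by norm_num) (by norm_num)
  rw [Real.log_pow, Real.log_pow, Real.log_div (by norm_num) (by norm_num),
    show (32:ℝ) = 2 ^ 5 by norm_num, Real.log_pow] at h
  push_cast at h ⊢
  nlinarith

/-- Unboundedness at the tuple with reciprocal exponents `w1, w2, w3`. -/
lemma tuple_of_weights {r w1 w2 w3 c σ : ℝ} (hr : 0 < r) (a1 : 0 < w1) (b1 : w1 < 1)
    (a2 : 0 < w2) (b2 : w2 < 1) (a3 : 0 < w3) (b3 : w3 < 1) (hsum : w1 + w2 + w3 = 1 / r)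
    (hσ0 : 0 < σ) (hσ1 : σ ≤ 1)
    (hlt : √(c ^ 2 + σ ^ 2) ^ w1 * √((4 * c - 1) ^ 2 + 16 * σ ^ 2) ^ w2 *
      √((3 * c - 1) ^ 2 + 9 * σ ^ 2) ^ w3 < σ) :
    ∃ p1 p2 p3 : ℝ≥0∞, 1 < p1 ∧ 1 < p2 ∧ 1 < p3 ∧
      p1⁻¹ + p2⁻¹ + p3⁻¹ = (ENNReal.ofReal r)⁻¹ ∧
      ∀ C : ℝ≥0, ∃ f1 f2 f3 : 𝓢(ℝ, ℂ), ∃ g : ℝ → ℂ,
        (∀ x : ℝ, Tendsto (fun q : ℝ × ℝ => ∫ t in {t : ℝ | q.1 < |t| ∧ |t| < q.2},
            f1 (x - t) * f2 (x - 2 * t) * f3 (x - 3 * t) / (t : ℂ))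
          ((𝓝[>] (0 : ℝ)) ×ˢ atTop) (𝓝 (g x))) ∧
        (C : ℝ≥0∞) * eLpNorm f1 p1 volume * eLpNorm f2 p2 volume * eLpNorm f3 p3 volume <
          eLpNorm g (ENNReal.ofReal r) volume := by
  have conv : ∀ w : ℝ, 0 < w → (ENNReal.ofReal w⁻¹)⁻¹ = ENNReal.ofReal w := fun w hw => by
    rw [ENNReal.ofReal_inv_of_pos hw, inv_inv]
  have gt1 : ∀ w : ℝ, 0 < w → w < 1 → 1 < ENNReal.ofReal w⁻¹ := fun w hw hw1 =>
    ENNReal.one_lt_ofReal.mpr ((one_lt_inv₀ hw).mpr hw1)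
  have hp : (ENNReal.ofReal w1⁻¹)⁻¹ + (ENNReal.ofReal w2⁻¹)⁻¹ + (ENNReal.ofReal w3⁻¹)⁻¹ =
      (ENNReal.ofReal r)⁻¹ := by
    rw [conv _ a1, conv _ a2, conv _ a3, ← ENNReal.ofReal_add a1.le a2.le,
      ← ENNReal.ofReal_add (by linarith) a3.le, hsum, one_div, ENNReal.ofReal_inv_of_pos hr]
  refine ⟨_, _, _, gt1 _ a1 b1, gt1 _ a2 b2, gt1 _ a3 b3, hp, fun C => ?_⟩
  refine unbounded_of_gaussian (c := c) hσ0 hσ1 _ _ _ r (gt1 _ a1 b1) (gt1 _ a2 b2) (gt1 _ a3 b3) hr hp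
    ?_ C
  rwa [conv _ a1, conv _ a2, conv _ a3, ENNReal.toReal_ofReal a1.le, ENNReal.toReal_ofReal a2.le,
    ENNReal.toReal_ofReal a3.le]

/-- Every value of `r` in `(1/3, 1/2)` occurs at a tuple of unboundedness. -/
theorem exists_unbounded_tuple {r : ℝ} (hr3 : 1/3 < r) (hr2 : r < 1/2) :
    ∃ p1 p2 p3 : ℝ≥0∞, 1 < p1 ∧ 1 < p2 ∧ 1 < p3 ∧
      p1⁻¹ + p2⁻¹ + p3⁻¹ = (ENNReal.ofReal r)⁻¹ ∧
      ∀ C : ℝ≥0, ∃ f1 f2 f3 : 𝓢(ℝ, ℂ), ∃ g : ℝ → ℂ,
        (∀ x : ℝ, Tendsto (fun q : ℝ × ℝ => ∫ t in {t : ℝ | q.1 < |t| ∧ |t| < q.2},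
            f1 (x - t) * f2 (x - 2 * t) * f3 (x - 3 * t) / (t : ℂ))
          ((𝓝[>] (0 : ℝ)) ×ˢ atTop) (𝓝 (g x))) ∧
        (C : ℝ≥0∞) * eLpNorm f1 p1 volume * eLpNorm f2 p2 volume * eLpNorm f3 p3 volume <
          eLpNorm g (ENNReal.ofReal r) volume := by
  have hr : 0 < r := by linarith
  rcases le_or_gt r (4/11) with h | h
  · have hw : 0 < 1 / (3 * r) := by positivity
    have hw1 : 1 / (3 * r) < 1 := by rw [div_lt_one (by positivity)]; linarith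
    have hsum : 1 / (3 * r) + 1 / (3 * r) + 1 / (3 * r) = 1 / r := by field_simp; ring
    refine tuple_of_weights (c := 7/26) (σ := √3 / 26) hr hw hw1 hw hw1 hw hw1 hsum (by positivity) ?_
      (range_ineq hr hsum (lt_of_le_of_lt h ?_))
    · rw [div_le_one (by norm_num), Real.sqrt_le_left (by norm_num)]; norm_num
    · rw [lt_div_iff₀ (Real.log_pos (by norm_num))]
      have : Real.log (((676:ℝ) / 3) ^ 4) < Real.log ((13:ℝ) ^ 11) :=
        Real.log_lt_log (by norm_num) (by norm_num)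
      rw [Real.log_pow, Real.log_pow] at this
      push_cast at this
      linarith
  · have h1 : 1 / r < 11/4 := by rw [div_lt_iff₀ hr]; linarith
    have h2 : 2 < 1 / r := by rw [lt_div_iff₀ hr]; linarith
    have he : 0 < 4/3 * (1 / r - 2) := by linarith
    exact tuple_of_weights (c := 1/8) (σ := 1/8) (w1 := 1 - 4/3 * (1 / r - 2) / 8)
      (w2 := 1 - 4/3 * (1 / r - 2) / 8) (w3 := 4/3 * (1 / r - 2)) hr (by linarith) (by linarith)
      (by linarith) (by linarith) he (by linarith) (by ring) (by norm_num) (by norm_num)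
      (near_half_ineq he)

end Vale.Agent.P141
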